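import Vale.Agent.P141.H28.Ridge
import Vale.Agent.P141.H45.PhiMid

/-!
# P141, line (A): the middle step of a pair with a moving weight

`X = cᵀ Θ c` is the Gram matrix of the rows `c` with the weight `Θ`.  When the middle cell is halved
the weight moves to `Θ + N ± M`.  The pair value is `tr (Aᵀ A ps ν X)`, `ps ν X = ν⁻¹ phi (ν X)`.
`mid_weight`: the first order term is absorbed by half of the static gain.
-/

set_option linter.unusedSectionVars false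

namespace Vale.Agent.P141.H28

open Matrix Vale.Agent.P075

noncomputable section

/-- the saturation at the level `ν⁻¹` -/
def ps {n : Type*} [Fintype n] [DecidableEq n] (ν : ℝ) (X : Matrix n n ℝ) : Matrix n n ℝ :=
  ν⁻¹ • phi (ν • X)

section one

variable {κ α n : Type*} [Fintype κ] [Fintype α] [Fintype n] [DecidableEq n] [DecidableEq κ]

theorem nu_psd {ν : ℝ} (hν : 0 < ν) {X : Matrix n n ℝ} (hX : X.PosSemidef) :
    (ν • X).PosSemidef := hX.smul hν.le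

theorem ps_psd {ν : ℝ} (hν : 0 < ν) {X : Matrix n n ℝ} (hX : X.PosSemidef) :
    (ps ν X).PosSemidef := (phi_psd (nu_psd hν hX)).smul (inv_nonneg.2 hν.le)

/-- `Gram` with a weight -/
theorem gram_psd {Θ : Matrix κ κ ℝ} (hΘ : Θ.PosSemidef) (c : Matrix κ n ℝ) :
    (cᵀ * Θ * c).PosSemidef := by
  have := psd_conj hΘ cᵀ
  rwa [transpose_transpose] at this

/-- the solution of the ridge problem, in the variable of the columns -/
def Gs (ν : ℝ) (X : Matrix n n ℝ) (A : Matrix α n ℝ) : Matrix n α ℝ := res (ν • X) * Aᵀ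

theorem Gs_eq {ν : ℝ} (hν : 0 < ν) {X : Matrix n n ℝ} (hX : X.PosSemidef) (A : Matrix α n ℝ) :
    Gs ν X A + ν • (X * Gs ν X A) = Aᵀ := by
  have h := mul_res (nu_psd hν hX)
  rw [Matrix.smul_mul] at h
  rw [Gs, ← Matrix.mul_assoc, ← Matrix.smul_mul, h, Matrix.sub_mul, Matrix.one_mul]
  abel

/-- the value -/
theorem val_eq {ν : ℝ} (hν : 0 < ν) {X : Matrix n n ℝ} (hX : X.PosSemidef) (A : Matrix α n ℝ) :
    (Aᵀ * A * ps ν X).trace = ip (X * Gs ν X A) Aᵀ := by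
  have hXt := psd_isSymm hX
  have hr := res_symm (nu_psd hν hX)
  have e1 : ps ν X = X * res (ν • X) := by
    have h := mul_res (nu_psd hν hX)
    rw [ps, phi, ← h, Matrix.smul_mul, smul_smul, inv_mul_cancel₀ hν.ne', one_smul]
  have e2 : X * res (ν • X) = res (ν • X) * X := by
    have h1 := mul_res (nu_psd hν hX)
    have h2 := res_mul (nu_psd hν hX)
    have : ν • (X * res (ν • X)) = ν • (res (ν • X) * X) := by
      rw [← Matrix.smul_mul, h1, ← h2, Matrix.mul_smul]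
    have h3 := congrArg (fun Z => ν⁻¹ • Z) this
    simpa [smul_smul, inv_mul_cancel₀ hν.ne'] using h3
  rw [ip, Gs, transpose_mul, transpose_mul, transpose_transpose, hXt, hr, e1, e2]
  rw [Matrix.mul_assoc, trace_mul_comm]
  simp only [Matrix.mul_assoc]

/-- the value splits in the two parts of the ridge functional -/
theorem val_split {ν : ℝ} (hν : 0 < ν) {X : Matrix n n ℝ} (hX : X.PosSemidef)
    (A : Matrix α n ℝ) : (Aᵀ * A * ps ν X).trace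
      = ip (Gs ν X A) (X * Gs ν X A) + ν * ip (X * Gs ν X A) (X * Gs ν X A) := by
  rw [val_eq hν hX, ← Gs_eq hν hX A, ip_add_right, ip_smul_right, ip_comm (X * Gs ν X A)]

theorem ip_rect (c : Matrix κ n ℝ) (U : Matrix n α ℝ) (V : Matrix κ α ℝ) :
    ip (c * U) V = ip U (cᵀ * V) := by
  simp [ip, Matrix.mul_assoc]

/-- **test inequality**, exact -/
theorem test_eq {ν : ℝ} (hν : 0 < ν) {Θ : Matrix κ κ ℝ} (hΘ : Θ.PosSemidef) (c : Matrix κ n ℝ)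
    (A : Matrix α n ℝ) (y : Matrix κ α ℝ) :
    (Aᵀ * A * ps ν (cᵀ * Θ * c)).trace
      = 2 * ip (cᵀ * (Θ * y)) Aᵀ - ip y (Θ * y) - ν * ip (cᵀ * (Θ * y)) (cᵀ * (Θ * y))
        + (ip (y - c * Gs ν (cᵀ * Θ * c) A) (Θ * (y - c * Gs ν (cᵀ * Θ * c) A))
          + ν * ip (cᵀ * (Θ * (y - c * Gs ν (cᵀ * Θ * c) A)))
            (cᵀ * (Θ * (y - c * Gs ν (cᵀ * Θ * c) A)))) := by
  have hX := gram_psd hΘ c
  have hs := psd_isSymm hΘ
  have e0 := val_split hν hX A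
  have e1 := Gs_eq hν hX A
  set X := cᵀ * Θ * c with hXd
  set G := Gs ν X A with hG
  have a1 : cᵀ * (Θ * (c * G)) = X * G := by rw [hXd]; simp only [Matrix.mul_assoc]
  have a2 : ip y (Θ * (c * G)) = ip G (cᵀ * (Θ * y)) := by
    rw [← ip_rect, ip_mul, hs, ip_comm]
  have a3 : ip (c * G) (Θ * y) = ip G (cᵀ * (Θ * y)) := ip_rect _ _ _
  have a4 : ip (c * G) (Θ * (c * G)) = ip G (X * G) := by rw [ip_rect, a1]
  have a5 : ip (cᵀ * (Θ * y)) Aᵀ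
      = ip G (cᵀ * (Θ * y)) + ν * ip (cᵀ * (Θ * y)) (X * G) := by
    rw [← e1, ip_add_right, ip_smul_right, ip_comm _ G]
  rw [e0, a5]
  simp only [Matrix.mul_sub, ip_sub_left, ip_sub_right, a1, a2, a3, a4,
    ip_comm (X * G) (cᵀ * (Θ * y))]
  ring

/-- positivity of a weighted square -/
theorem wip_nonneg {Θ : Matrix κ κ ℝ} (hΘ : Θ.PosSemidef) (w : Matrix κ α ℝ) :
    0 ≤ ip w (Θ * w) := ip_psd hΘ w

/-- weighted Young inequality, `T` the inverse of the weight -/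
theorem wyoung {Θ T : Matrix κ κ ℝ} (hΘ : Θ.PosSemidef) (hT : Θ * T = 1)
    (U w : Matrix κ α ℝ) :
    ip U w ≤ (1 / 4) * ip w (Θ * w) + ip U (T * U) ∧
      -((1 / 4) * ip w (Θ * w) + ip U (T * U)) ≤ ip U w := by
  have hs := psd_isSymm hΘ
  have key : ∀ r : ℝ, 0 ≤ ip w (Θ * w) - 2 * r * ip U w + r * r * ip U (T * U) := by
    intro r
    have h := wip_nonneg hΘ (w - r • (T * U))
    have e1 : Θ * (w - r • (T * U)) = Θ * w - r • U := by
      rw [Matrix.mul_sub, Matrix.mul_smul, ← Matrix.mul_assoc, hT, Matrix.one_mul]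
    have e2 : ip (T * U) (Θ * w) = ip U w := by
      rw [ip_mul, hs, ← Matrix.mul_assoc, hT, Matrix.one_mul]
    have e3 : ip (T * U) U = ip U (T * U) := ip_comm _ _
    rw [e1] at h
    simp only [ip_sub_left, ip_sub_right, ip_smul_left, ip_smul_right, e2, e3, ip_comm w U] at h
    nlinarith
  constructor
  · have := key 2
    linarith
  · have := key (-2)
    linarith

/-- **one half with the moved weight** -/
theorem moved_w {ν : ℝ} (hν : 0 < ν) {Θ Θ' T' : Matrix κ κ ℝ} (hΘ : Θ.PosSemidef)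
    (hΘ' : Θ'.PosSemidef) (hT' : Θ' * T' = 1) (hTt : T'ᵀ = T') (c : Matrix κ n ℝ)
    (A : Matrix α n ℝ) :
    (Aᵀ * A * ps ν (cᵀ * Θ * c)).trace
      + ip (c * Gs ν (cᵀ * Θ * c) A) ((Θ' - Θ) * (c * Gs ν (cᵀ * Θ * c) A))
      - ip ((Θ' - Θ) * (c * Gs ν (cᵀ * Θ * c) A)) (T' * ((Θ' - Θ) * (c * Gs ν (cᵀ * Θ * c) A)))
      ≤ (Aᵀ * A * ps ν (cᵀ * Θ' * c)).trace := by
  have hX := gram_psd hΘ c
  have hs := psd_isSymm hΘ
  have hs' := psd_isSymm hΘ'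
  have hT2 : T' * Θ' = 1 := by
    have := congrArg transpose hT'
    rwa [transpose_mul, hTt, hs', transpose_one] at this
  have e0 := val_split hν hX A
  have e1 := val_eq hν hX A
  have a1 : cᵀ * (Θ * (c * Gs ν (cᵀ * Θ * c) A)) = (cᵀ * Θ * c) * Gs ν (cᵀ * Θ * c) A := by
    simp only [Matrix.mul_assoc]
  have a4 : ip (c * Gs ν (cᵀ * Θ * c) A) (Θ * (c * Gs ν (cᵀ * Θ * c) A))
      = ip (Gs ν (cᵀ * Θ * c) A) ((cᵀ * Θ * c) * Gs ν (cᵀ * Θ * c) A) := by rw [ip_rect, a1]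
  generalize cᵀ * Θ * c = X at *
  generalize Gs ν X A = G at *
  have h := test_eq hν hΘ' c A (T' * (Θ * (c * G)))
  have h1 := wip_nonneg hΘ' (T' * (Θ * (c * G)) - c * Gs ν (cᵀ * Θ' * c) A)
  have h2 : 0 ≤ ν * ip (cᵀ * (Θ' * (T' * (Θ * (c * G)) - c * Gs ν (cᵀ * Θ' * c) A)))
            (cᵀ * (Θ' * (T' * (Θ * (c * G)) - c * Gs ν (cᵀ * Θ' * c) A))) :=
    mul_nonneg hν.le (ip_self_nonneg _)
  have b1 : Θ' * (T' * (Θ * (c * G))) = Θ * (c * G) := by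
    rw [← Matrix.mul_assoc, hT', Matrix.one_mul]
  rw [b1, a1] at h
  have b2 : ip (T' * (Θ * (c * G))) (Θ * (c * G))
      = ip (c * G) (Θ * (c * G)) - ip (c * G) ((Θ' - Θ) * (c * G))
        + ip ((Θ' - Θ) * (c * G)) (T' * ((Θ' - Θ) * (c * G))) := by
    have q1 : Θ * (c * G) = Θ' * (c * G) - (Θ' - Θ) * (c * G) := by
      rw [Matrix.sub_mul]; abel
    have q2 : T' * (Θ * (c * G)) = c * G - T' * ((Θ' - Θ) * (c * G)) := by
      rw [q1, Matrix.mul_sub, ← Matrix.mul_assoc T', hT2, Matrix.one_mul]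
    have q3 : ip (T' * ((Θ' - Θ) * (c * G))) (Θ * (c * G))
        = ip (c * G) ((Θ' - Θ) * (c * G))
          - ip ((Θ' - Θ) * (c * G)) (T' * ((Θ' - Θ) * (c * G))) := by
      rw [q1, ip_sub_right, ip_comm (T' * ((Θ' - Θ) * (c * G))) ((Θ' - Θ) * (c * G)), ip_mul,
        hs', ← Matrix.mul_assoc, hT', Matrix.one_mul, ip_comm ((Θ' - Θ) * (c * G)) (c * G)]
    rw [q2, ip_sub_left, q3]
    ring
  rw [b2] at h
  linarith

/-- a loss is at most the cap of `A` times the energy of the columns -/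
theorem cap_loss {ν τ : ℝ} (hν : 0 < ν) {X : Matrix n n ℝ} (hX : X.PosSemidef)
    {A : Matrix α n ℝ} (hA : (τ • (1 : Matrix n n ℝ) - Aᵀ * A).PosSemidef) (hτ : 0 ≤ τ)
    {S : Matrix κ κ ℝ} (hS : S.PosSemidef) (c : Matrix κ n ℝ) :
    ip (c * Gs ν X A) (S * (c * Gs ν X A)) ≤ τ * (cᵀ * S * c).trace := by
  have hK := gram_psd hS c
  have hr := res_psd (nu_psd hν hX)
  have hrs := res_symm (nu_psd hν hX)
  have e1 : ip (c * Gs ν X A) (S * (c * Gs ν X A))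
      = ((res (ν • X) * (cᵀ * S * c) * res (ν • X)) * (Aᵀ * A)).trace := by
    rw [ip, Gs, transpose_mul, transpose_mul, transpose_transpose, hrs, trace_mul_comm]
    conv_rhs => rw [← Matrix.mul_assoc, trace_mul_comm]
    rw [trace_mul_comm]
    simp only [Matrix.mul_assoc]
  have h1 : 0 ≤ ((res (ν • X) * (cᵀ * S * c) * res (ν • X)) * (τ • (1 : Matrix n n ℝ) - Aᵀ * A)).trace :=
    trace_mul_nonneg (psd_conj_symm hK hrs) hA
  rw [Matrix.mul_sub, trace_sub, Matrix.mul_smul, Matrix.mul_one, trace_smul, smul_eq_mul] at h1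
  have h2 : (res (ν • X) * (cᵀ * S * c) * res (ν • X)).trace ≤ (cᵀ * S * c).trace := by
    have e : (res (ν • X) * (cᵀ * S * c) * res (ν • X)).trace
        = ((cᵀ * S * c) * (res (ν • X) * res (ν • X))).trace := by
      rw [trace_mul_comm, ← Matrix.mul_assoc, trace_mul_comm]
    have h3 : (1 - res (ν • X) * res (ν • X)).PosSemidef := by
      have e2 : 1 - res (ν • X) * res (ν • X)
          = (1 - res (ν • X)) + res (ν • X) * (ν • X) * res (ν • X) := by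
        rw [← res_sub_sq (nu_psd hν hX)]; abel
      rw [e2]
      exact (one_sub_res_psd (nu_psd hν hX)).add (psd_conj_symm (nu_psd hν hX) hrs)
    have h4 := trace_mul_nonneg hK h3
    rw [Matrix.mul_sub, Matrix.mul_one, trace_sub] at h4
    rw [e]
    linarith
  rw [e1]
  have := mul_le_mul_of_nonneg_left h2 hτ
  linarith

end one

section two

variable {κ α ι : Type*} [Fintype κ] [Fintype α] [Fintype ι] [DecidableEq ι] [DecidableEq κ]

theorem ip_rows (P₀ P₁ Q₀ Q₁ : Matrix ι α ℝ) :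
    ip (fromRows P₀ P₁) (fromRows Q₀ Q₁) = ip P₀ Q₀ + ip P₁ Q₁ := by
  rw [ip_eq, ip_eq, ip_eq, ← Finset.sum_add_distrib]
  refine Finset.sum_congr rfl fun j _ => ?_
  rw [Fintype.sum_sum_type]
  rfl

theorem cols_tmul (c₀ c₁ : Matrix κ ι ℝ) (V : Matrix κ α ℝ) :
    (fromCols c₀ c₁)ᵀ * V = fromRows (c₀ᵀ * V) (c₁ᵀ * V) := by
  rw [transpose_fromCols, fromRows_mul]

theorem half_bd (S : Matrix κ κ ℝ) (c₀ c₁ : Matrix κ ι ℝ) :
    (1 / 2 : ℝ) • ((fromCols c₀ c₁)ᵀ * S * fromCols c₀ c₁)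
      + rad ι * ((1 / 2 : ℝ) • ((fromCols c₀ c₁)ᵀ * S * fromCols c₀ c₁)) * rad ι
      = bd (c₀ᵀ * S * c₀) (c₁ᵀ * S * c₁) := by
  have e : (fromCols c₀ c₁)ᵀ * S * fromCols c₀ c₁
      = fromBlocks (c₀ᵀ * S * c₀) (c₀ᵀ * S * c₁) (c₁ᵀ * S * c₀) (c₁ᵀ * S * c₁) := by
    rw [cols_tmul, fromRows_mul_fromCols]
  rw [e, rad, bd, fromBlocks_smul, fromBlocks_multiply, fromBlocks_multiply]
  ext i j
  rcases i with i | i <;> rcases j with j | j <;> simp [fromBlocks] <;> ring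

theorem half_bd' (A₀ A₁ : Matrix α ι ℝ) :
    (1 / 2 : ℝ) • ((fromCols A₀ A₁)ᵀ * fromCols A₀ A₁)
      + rad ι * ((1 / 2 : ℝ) • ((fromCols A₀ A₁)ᵀ * fromCols A₀ A₁)) * rad ι
      = bd (A₀ᵀ * A₀) (A₁ᵀ * A₁) := by
  classical
  have h := half_bd (1 : Matrix α α ℝ) A₀ A₁
  simpa only [Matrix.mul_one] using h

theorem trace_cols (S : Matrix κ κ ℝ) (c₀ c₁ : Matrix κ ι ℝ) :
    ((fromCols c₀ c₁)ᵀ * S * fromCols c₀ c₁).trace
      = (c₀ᵀ * S * c₀).trace + (c₁ᵀ * S * c₁).trace := by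
  rw [cols_tmul, fromRows_mul_fromCols]
  simp [Matrix.trace, Fintype.sum_sum_type]

theorem bd_psd {D₀ D₁ : Matrix ι ι ℝ} (h₀ : D₀.PosSemidef) (h₁ : D₁.PosSemidef) :
    (bd D₀ D₁).PosSemidef := by
  obtain ⟨B, hB, rfl⟩ := exists_sq h₀
  obtain ⟨C, hC, rfl⟩ := exists_sq h₁
  have e : (bd B C)ᵀ = bd B C := by
    rw [bd, fromBlocks_transpose, psd_isSymm hB, psd_isSymm hC, transpose_zero]
  have h := psd_mul_transpose (bd B C)
  rwa [e, bd_mul] at h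

theorem rad_bd (D₀ D₁ : Matrix ι ι ℝ) : rad ι * bd D₀ D₁ * rad ι = bd D₀ D₁ := by
  rw [rad, bd, fromBlocks_multiply, fromBlocks_multiply]
  simp

theorem trace_rad (Y Z : Matrix (ι ⊕ ι) (ι ⊕ ι) ℝ) (hZ : rad ι * Z * rad ι = Z) :
    (Y * Z).trace = (1 / 2) * ((Y + rad ι * Y * rad ι) * Z).trace := by
  have e : (rad ι * Y * rad ι * Z).trace = (Y * Z).trace := by
    conv_rhs => rw [← hZ]
    rw [Matrix.mul_assoc, Matrix.mul_assoc, trace_mul_comm]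
    simp only [Matrix.mul_assoc]
  rw [Matrix.add_mul, trace_add, e]
  ring

theorem tr_bd' (D₀ D₁ E₀ E₁ : Matrix ι ι ℝ) :
    (bd D₀ D₁ * bd E₀ E₁).trace = (D₀ * E₀).trace + (D₁ * E₁).trace := by
  rw [bd_mul, trace_bd]

/-- **Middle step of a pair with a moving weight.**  Parent `(c, A)` with the weight `Θ` on
`ι ⊕ ι`; the halves carry `Θ + N + M` and `Θ + N - M`. -/
theorem mid_weight {ν τ : ℝ} (hν : 0 < ν) (hτ : 0 ≤ τ)
    {Θ T Θ₀ T₀ Θ₁ T₁ N M Nm : Matrix κ κ ℝ} (hΘ : Θ.PosSemidef)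
    (hΘ₀ : Θ₀.PosSemidef) (hΘ₁ : Θ₁.PosSemidef) (hT : Θ * T = 1) (hT₀ : Θ₀ * T₀ = 1)
    (hT₁ : Θ₁ * T₁ = 1) (hTp : T.PosSemidef) (hTp₀ : T₀.PosSemidef) (hTp₁ : T₁.PosSemidef)
    (e₀ : Θ₀ = Θ + N + M) (e₁ : Θ₁ = Θ + N - M) (hN : Nᵀ = N) (hM : Mᵀ = M)
    (hNm : Nm.PosSemidef) (hNN : (N + Nm).PosSemidef)
    {A₀ A₁ : Matrix α ι ℝ} (hA₀ : (τ • (1 : Matrix ι ι ℝ) - A₀ᵀ * A₀).PosSemidef)
    (hA₁ : (τ • (1 : Matrix ι ι ℝ) - A₁ᵀ * A₁).PosSemidef) (c₀ c₁ : Matrix κ ι ℝ)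
    {X XA : Matrix (ι ⊕ ι) (ι ⊕ ι) ℝ}
    (hX : X = (1 / 2 : ℝ) • ((fromCols c₀ c₁)ᵀ * Θ * fromCols c₀ c₁))
    (hXA : XA = (1 / 2 : ℝ) • ((fromCols A₀ A₁)ᵀ * fromCols A₀ A₁)) :
    (XA * ps ν X).trace + (1 / 4) * (XA * (rad ι * ps ν X * rad ι)).trace
      ≤ (1 / 2) * ((A₀ᵀ * A₀ * ps ν (c₀ᵀ * Θ₀ * c₀)).trace
          + (A₁ᵀ * A₁ * ps ν (c₁ᵀ * Θ₁ * c₁)).trace)
        + τ * ((ν / 2) * (ps ν X * (rad ι * ps ν X * rad ι)).trace
          + ((c₀ᵀ * (M * T * M) * c₀).trace + (c₁ᵀ * (M * T * M) * c₁).trace)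
          + (1 / 2) * ((c₀ᵀ * ((N + M) * T₀ * (N + M)) * c₀).trace
            + (c₁ᵀ * ((N - M) * T₁ * (N - M)) * c₁).trace)
          + (1 / 2) * ((c₀ᵀ * Nm * c₀).trace + (c₁ᵀ * Nm * c₁).trace)) := by
  classical
  have sT := psd_isSymm hTp
  have sT₀ := psd_isSymm hTp₀
  have sT₁ := psd_isSymm hTp₁
  have sΘ := psd_isSymm hΘ
  set c := fromCols c₀ c₁ with hc
  set A := fromCols A₀ A₁ with hAd
  have g₀ := gram_psd hΘ c₀
  have g₁ := gram_psd hΘ c₁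
  have gX : X.PosSemidef := by
    rw [hX]; exact (gram_psd hΘ c).smul (by norm_num)
  have gXA : XA.PosSemidef := by
    rw [hXA]; exact (psd_transpose_mul A).smul (by norm_num)
  have bX : X + rad ι * X * rad ι = bd (c₀ᵀ * Θ * c₀) (c₁ᵀ * Θ * c₁) := by
    rw [hX]; exact half_bd Θ c₀ c₁
  have bA : XA + rad ι * XA * rad ι = bd (A₀ᵀ * A₀) (A₁ᵀ * A₁) := by
    rw [hXA]; exact half_bd' A₀ A₁
  -- caps
  have hbd : (τ • (1 : Matrix (ι ⊕ ι) (ι ⊕ ι) ℝ) - bd (A₀ᵀ * A₀) (A₁ᵀ * A₁)).PosSemidef := by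
    have e : τ • (1 : Matrix (ι ⊕ ι) (ι ⊕ ι) ℝ) - bd (A₀ᵀ * A₀) (A₁ᵀ * A₁)
        = bd (τ • (1 : Matrix ι ι ℝ) - A₀ᵀ * A₀) (τ • (1 : Matrix ι ι ℝ) - A₁ᵀ * A₁) := by
      rw [bd, bd, ← fromBlocks_one, fromBlocks_smul]
      ext i j
      rcases i with i | i <;> rcases j with j | j <;> simp [fromBlocks]
    rw [e]
    exact bd_psd hA₀ hA₁
  have hXAt : (τ • (1 : Matrix (ι ⊕ ι) (ι ⊕ ι) ℝ) - XA).PosSemidef := by
    have e : τ • (1 : Matrix (ι ⊕ ι) (ι ⊕ ι) ℝ) - XA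
        = (τ • (1 : Matrix (ι ⊕ ι) (ι ⊕ ι) ℝ) - bd (A₀ᵀ * A₀) (A₁ᵀ * A₁))
          + rad ι * XA * rad ι := by
      rw [← bA]; abel
    rw [e]
    exact hbd.add (psd_conj_symm gXA rad_symm)
  have hAt : ((2 * τ) • (1 : Matrix (ι ⊕ ι) (ι ⊕ ι) ℝ) - Aᵀ * A).PosSemidef := by
    have e : (2 * τ) • (1 : Matrix (ι ⊕ ι) (ι ⊕ ι) ℝ) - Aᵀ * A
        = (2 : ℝ) • (τ • (1 : Matrix (ι ⊕ ι) (ι ⊕ ι) ℝ) - XA) := by
      rw [hXA, smul_sub, smul_smul, smul_smul]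
      norm_num
    rw [e]
    exact hXAt.smul (by norm_num)
  -- static gain
  have st := H45.mid_partner gXA hXAt hτ (nu_psd hν gX) (rad_symm (m := ι)) rad_sq
  have sb : ν • X + rad ι * (ν • X) * rad ι
      = bd (ν • (c₀ᵀ * Θ * c₀)) (ν • (c₁ᵀ * Θ * c₁)) := by
    have e : ν • X + rad ι * (ν • X) * rad ι = ν • (X + rad ι * X * rad ι) := by
      rw [smul_add, Matrix.mul_smul, Matrix.smul_mul]
    rw [e, bX, bd, bd, fromBlocks_smul, smul_zero]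
  rw [sb, phi_bd (nu_psd hν g₀) (nu_psd hν g₁), trace_rad _ _ (rad_bd _ _), bA, tr_bd'] at st
  -- values
  set F₀ := (A₀ᵀ * A₀ * ps ν (c₀ᵀ * Θ * c₀)).trace with hF₀
  set F₁ := (A₁ᵀ * A₁ * ps ν (c₁ᵀ * Θ * c₁)).trace with hF₁
  have v₀ : (A₀ᵀ * A₀ * phi (ν • (c₀ᵀ * Θ * c₀))).trace = ν * F₀ := by
    rw [hF₀, ps, Matrix.mul_smul, trace_smul, smul_eq_mul, mul_inv_cancel_left₀ hν.ne']
  have v₁ : (A₁ᵀ * A₁ * phi (ν • (c₁ᵀ * Θ * c₁))).trace = ν * F₁ := by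
    rw [hF₁, ps, Matrix.mul_smul, trace_smul, smul_eq_mul, mul_inv_cancel_left₀ hν.ne']
  have eφ : phi (ν • X) = ν • ps ν X := by
    rw [ps, smul_smul, mul_inv_cancel₀ hν.ne', one_smul]
  rw [v₀, v₁, eφ] at st
  simp only [Matrix.mul_smul, Matrix.smul_mul, trace_smul, smul_eq_mul] at st
  have st' : (XA * ps ν X).trace + (1 / 2) * (XA * (rad ι * ps ν X * rad ι)).trace
      ≤ (1 / 2) * (F₀ + F₁) + τ * (ν * (ps ν X * (rad ι * ps ν X * rad ι)).trace) := by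
    have h := mul_le_mul_of_nonneg_left st (inv_nonneg.2 hν.le)
    have e1 : ν⁻¹ * (ν * (XA * ps ν X).trace
        + 1 / 2 * (ν * (XA * (rad ι * ps ν X * rad ι)).trace))
        = (XA * ps ν X).trace + (1 / 2) * (XA * (rad ι * ps ν X * rad ι)).trace := by
      field_simp
    have e2 : ν⁻¹ * (1 / 2 * (ν * F₀ + ν * F₁)
        + τ * (ν * (ν * (ps ν X * (rad ι * ps ν X * rad ι)).trace)))
        = (1 / 2) * (F₀ + F₁) + τ * (ν * (ps ν X * (rad ι * ps ν X * rad ι)).trace) := by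
      field_simp
    rw [e1, e2] at h
    exact h
  -- the parent solution
  set G := Gs ν X A with hG
  set η := (1 / 2 : ℝ) • (c * G) with hη
  set η₀ := c₀ * Gs ν (c₀ᵀ * Θ * c₀) A₀ with hη₀
  set η₁ := c₁ * Gs ν (c₁ᵀ * Θ * c₁) A₁ with hη₁
  set V := (XA * ps ν X).trace with hV
  have t₀ := test_eq hν hΘ c₀ A₀ η
  have t₁ := test_eq hν hΘ c₁ A₁ η
  rw [← hη₀] at t₀
  rw [← hη₁] at t₁
  have u₀ := mul_nonneg hν.le (ip_self_nonneg (c₀ᵀ * (Θ * (η - η₀))))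
  have u₁ := mul_nonneg hν.le (ip_self_nonneg (c₁ᵀ * (Θ * (η - η₁))))
  have cη : cᵀ * (Θ * η) = X * G := by
    rw [hη, hX, Matrix.mul_smul, Matrix.mul_smul, Matrix.smul_mul]
    simp only [Matrix.mul_assoc]
  have AT : Aᵀ = fromRows A₀ᵀ A₁ᵀ := by rw [hAd, transpose_fromCols]
  have cV : fromRows (c₀ᵀ * (Θ * η)) (c₁ᵀ * (Θ * η)) = X * G := by
    rw [← cη, hc, cols_tmul]
  have p1 : ip (c₀ᵀ * (Θ * η)) A₀ᵀ + ip (c₁ᵀ * (Θ * η)) A₁ᵀ = 2 * V := by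
    rw [← ip_rows, cV, ← AT, ← val_eq hν gX A, hV, hXA, Matrix.smul_mul, trace_smul, smul_eq_mul]
    ring
  have p2 : ip (c₀ᵀ * (Θ * η)) (c₀ᵀ * (Θ * η)) + ip (c₁ᵀ * (Θ * η)) (c₁ᵀ * (Θ * η))
      = ip (X * G) (X * G) := by
    rw [← ip_rows, cV]
  have p3 : ip η (Θ * η) = (1 / 2) * ip G (X * G) := by
    have : ip η (Θ * η) = (1 / 2) * ip G (cᵀ * (Θ * η)) := by
      rw [← ip_rect, ← ip_smul_left]
    rw [this, cη]
  have p4 : 2 * V = ip G (X * G) + ν * ip (X * G) (X * G) := by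
    rw [← val_split hν gX A, hV, hXA, Matrix.smul_mul, trace_smul, smul_eq_mul]
    ring
  -- so half the sum of the static values is `V` plus the squares
  have gain : (1 / 2) * (F₀ + F₁) - V
      = (1 / 2) * ((ip (η - η₀) (Θ * (η - η₀)) + ν * ip (c₀ᵀ * (Θ * (η - η₀)))
            (c₀ᵀ * (Θ * (η - η₀))))
        + (ip (η - η₁) (Θ * (η - η₁)) + ν * ip (c₁ᵀ * (Θ * (η - η₁)))
            (c₁ᵀ * (Θ * (η - η₁))))) := by
    rw [hF₀, hF₁, t₀, t₁]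
    have p2' := congrArg (fun z => ν * z) p2
    simp only [mul_add] at p2'
    linarith
  -- moved halves
  have m₀ := moved_w hν hΘ hΘ₀ hT₀ sT₀ c₀ A₀
  have m₁ := moved_w hν hΘ hΘ₁ hT₁ sT₁ c₁ A₁
  have d₀ : Θ₀ - Θ = N + M := by rw [e₀]; abel
  have d₁ : Θ₁ - Θ = N - M := by rw [e₁]; abel
  rw [← hη₀, d₀] at m₀
  rw [← hη₁, d₁] at m₁
  -- drift
  have n₀ := wip_nonneg hNN η₀
  have n₁ := wip_nonneg hNN η₁
  rw [Matrix.add_mul, ip_add_right] at n₀ n₁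
  -- first order terms
  have f₀ : ip η₀ (M * η₀) = ip (M * η) η - ip (M * η) (η - η₀) - ip (M * η₀) (η - η₀) := by
    have q : ip (M * η) η₀ = ip (M * η₀) η := by
      rw [ip_comm, ip_mul, hM]
    have q2 : ip η₀ (M * η₀) = ip (M * η₀) η₀ := ip_comm _ _
    rw [ip_sub_right, ip_sub_right, q, q2]
    ring
  have f₁ : ip η₁ (M * η₁) = ip (M * η) η - ip (M * η) (η - η₁) - ip (M * η₁) (η - η₁) := by
    have q : ip (M * η) η₁ = ip (M * η₁) η := by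
      rw [ip_comm, ip_mul, hM]
    have q2 : ip η₁ (M * η₁) = ip (M * η₁) η₁ := ip_comm _ _
    rw [ip_sub_right, ip_sub_right, q, q2]
    ring
  have y₀ := wyoung hΘ hT (M * η) (η - η₀)
  have y₁ := wyoung hΘ hT (M * η) (η - η₁)
  have z₀ := wyoung hΘ hT (M * η₀) (η - η₀)
  have z₁ := wyoung hΘ hT (M * η₁) (η - η₁)
  rw [Matrix.add_mul, ip_add_right, f₀] at m₀
  rw [Matrix.sub_mul, ip_sub_right, f₁] at m₁
  -- losses
  have key : ∀ (S : Matrix κ κ ℝ) (ζ : Matrix κ α ℝ) (T' : Matrix κ κ ℝ), Sᵀ = S →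
      ip (S * ζ) (T' * (S * ζ)) = ip ζ ((S * T' * S) * ζ) := by
    intro S ζ T' hS
    have h := ip_mul S ζ (T' * (S * ζ))
    rw [hS] at h
    rw [← h]
    simp only [Matrix.mul_assoc]
  have sNp : (N + M)ᵀ = N + M := by rw [transpose_add, hN, hM]
  have sNn : (N - M)ᵀ = N - M := by rw [transpose_sub, hN, hM]
  have l1 : ip (M * η) (T * (M * η))
      ≤ (1 / 2) * τ * ((c₀ᵀ * (M * T * M) * c₀).trace + (c₁ᵀ * (M * T * M) * c₁).trace) := by
    rw [key M η T hM, hη, Matrix.mul_smul, ip_smul_left, ip_smul_right]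
    have h := cap_loss hν gX hAt (by linarith) (psd_conj_symm hTp hM) c
    rw [← hG, hc, trace_cols] at h
    rw [← hc] at h
    linarith
  have l2 : ip (M * η₀) (T * (M * η₀)) ≤ τ * (c₀ᵀ * (M * T * M) * c₀).trace := by
    rw [key M η₀ T hM]
    exact cap_loss hν g₀ hA₀ hτ (psd_conj_symm hTp hM) c₀
  have l3 : ip (M * η₁) (T * (M * η₁)) ≤ τ * (c₁ᵀ * (M * T * M) * c₁).trace := by
    rw [key M η₁ T hM]
    exact cap_loss hν g₁ hA₁ hτ (psd_conj_symm hTp hM) c₁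
  have l4 : ip ((N + M) * η₀) (T₀ * ((N + M) * η₀))
      ≤ τ * (c₀ᵀ * ((N + M) * T₀ * (N + M)) * c₀).trace := by
    rw [key (N + M) η₀ T₀ sNp]
    exact cap_loss hν g₀ hA₀ hτ (psd_conj_symm hTp₀ sNp) c₀
  have l5 : ip ((N - M) * η₁) (T₁ * ((N - M) * η₁))
      ≤ τ * (c₁ᵀ * ((N - M) * T₁ * (N - M)) * c₁).trace := by
    rw [key (N - M) η₁ T₁ sNn]
    exact cap_loss hν g₁ hA₁ hτ (psd_conj_symm hTp₁ sNn) c₁
  have l6 : ip η₀ (Nm * η₀) ≤ τ * (c₀ᵀ * Nm * c₀).trace := cap_loss hν g₀ hA₀ hτ hNm c₀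
  have l7 : ip η₁ (Nm * η₁) ≤ τ * (c₁ᵀ * Nm * c₁).trace := cap_loss hν g₁ hA₁ hτ hNm c₁
  rw [Matrix.add_mul] at l4
  rw [Matrix.sub_mul] at l5
  linarith [y₀.1, y₀.2, y₁.1, y₁.2, z₀.1, z₀.2, z₁.1, z₁.2]

end two

section loss

variable {κ n : Type*} [Fintype κ] [Fintype n] [DecidableEq κ]

/-- the losses of the weight `β + R²`: the vector is `R x + y` -/
theorem wt_loss {β : ℝ} (hβ : 0 < β) {R T : Matrix κ κ ℝ} (hR : Rᵀ = R)
    (hT : (β • 1 + R * R) * T = 1) (hTp : T.PosSemidef) (P Q : Matrix κ n ℝ) :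
    ((R * P + Q)ᵀ * T * (R * P + Q)).trace
      ≤ 2 * (Pᵀ * P).trace + 2 * β⁻¹ * (Qᵀ * Q).trace := by
  classical
  have sT := psd_isSymm hTp
  have hT' : T * (β • 1 + R * R) = 1 := by
    have h := congrArg transpose hT
    rwa [transpose_mul, transpose_add, transpose_smul, transpose_one, transpose_mul, hR, sT] at h
  have comm : T * R = R * T := by
    have e : R * (β • 1 + R * R) = (β • 1 + R * R) * R := by
      rw [Matrix.mul_add, Matrix.add_mul, Matrix.mul_smul, Matrix.smul_mul, Matrix.mul_one,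
        Matrix.one_mul, Matrix.mul_assoc]
    calc T * R = T * R * ((β • 1 + R * R) * T) := by rw [hT, Matrix.mul_one]
      _ = T * (R * (β • 1 + R * R)) * T := by simp only [Matrix.mul_assoc]
      _ = T * ((β • 1 + R * R) * R) * T := by rw [e]
      _ = (T * (β • 1 + R * R)) * (R * T) := by simp only [Matrix.mul_assoc]
      _ = R * T := by rw [hT', Matrix.one_mul]
  have h1 : R * T * R = 1 - β • T := by
    rw [← comm, Matrix.mul_assoc]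
    rw [Matrix.mul_add, Matrix.mul_smul, Matrix.mul_one] at hT'
    rw [← hT']
    abel
  have h2 : (β⁻¹ • (1 : Matrix κ κ ℝ) - T).PosSemidef := by
    have e : β⁻¹ • (1 : Matrix κ κ ℝ) - T = β⁻¹ • (R * T * R) := by
      rw [h1, smul_sub, smul_smul, inv_mul_cancel₀ hβ.ne', one_smul]
    rw [e]
    exact (psd_conj_symm hTp hR).smul (inv_nonneg.2 hβ.le)
  have p0 : ((R * P)ᵀ * T * (R * P)).trace ≤ (Pᵀ * P).trace := by
    have e : (R * P)ᵀ * T * (R * P) = Pᵀ * (R * T * R) * P := by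
      rw [transpose_mul, hR]; simp only [Matrix.mul_assoc]
    have h := (gram_psd hTp P).trace_nonneg
    rw [e, h1, Matrix.mul_sub, Matrix.sub_mul, Matrix.mul_one, trace_sub, Matrix.mul_smul,
      Matrix.smul_mul, trace_smul, smul_eq_mul]
    have := mul_nonneg hβ.le h
    linarith
  have p1 : (Qᵀ * T * Q).trace ≤ β⁻¹ * (Qᵀ * Q).trace := by
    have h := (gram_psd h2 Q).trace_nonneg
    rw [Matrix.mul_sub, Matrix.sub_mul, trace_sub, Matrix.mul_smul, Matrix.smul_mul,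
      Matrix.mul_one, trace_smul, smul_eq_mul] at h
    linarith
  have p2 := (gram_psd hTp (R * P - Q)).trace_nonneg
  have e3 : ((R * P + Q)ᵀ * T * (R * P + Q)).trace + ((R * P - Q)ᵀ * T * (R * P - Q)).trace
      = 2 * ((R * P)ᵀ * T * (R * P)).trace + 2 * (Qᵀ * T * Q).trace := by
    simp only [transpose_add, transpose_sub, Matrix.add_mul, Matrix.sub_mul, Matrix.mul_add,
      Matrix.mul_sub, trace_add, trace_sub]
    ring
  linarith

end loss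

end

end Vale.Agent.P141.H28
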