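import Vale.Agent.P141.H28.AffP
import Vale.Agent.P141.H652.ThetaS

/-!
# P141, line (A), TI: the weight `Th` on the affected cells

`A k (cx k (x0, x1, x3))` : any predicate of the cells with the packing `GP` = `H460.GPack`.  The sum over `x0`, `k`, `x1`, `x3` of `Z ^ 2 ⟪v, Th v⟫` over the affected
cells: `Th` is dominated by the tree `WT` of `x2`, whose densities `gw` increase with the scale;
`H460.tree_aff` in the tree of `(x2, x1, x3)`.
-/

namespace Vale.Agent.P141.H28.AffI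

open Finset Matrix
open Vale.Agent.P141.PL (Pt iv ix cb cx mem_iv mem_cb card_iv card_cb ix_ix)
open Vale.Agent.P141.H460 (QPack LPack Lin iv_part iv_const ix_mem pack2 tree_aff)
open Vale.Agent.P141.H420 (Tr)
open Vale.Agent.P141.H652 (WT ET Th st Drift gw)

noncomputable section

open scoped Classical

variable {ι : Type*} [Fintype ι] [DecidableEq ι] {l : ℝ}

/-! ### The scalar tree -/

omit [DecidableEq ι] in
/-- the form as a linear map -/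
def qf (v : ι → ℝ) : Matrix ι ι ℝ →ₗ[ℝ] ℝ where
  toFun B := v ⬝ᵥ B *ᵥ v
  map_add' B C := by rw [add_mulVec, dotProduct_add]
  map_smul' r B := by rw [smul_mulVec, dotProduct_smul, RingHom.id_apply]

/-- the tree `⟪v, WT v⟫` -/
def wX (l : ℝ) (K : ℕ) (M : ℤ) (Kr : ℕ → ℤ → Matrix ι ι ℝ) (v : ι → ℝ) (k : ℕ) (q : ℤ) : ℝ :=
  v ⬝ᵥ WT l K M Kr k q *ᵥ v

/-- its drift -/
def eX (l : ℝ) (K : ℕ) (M : ℤ) (Kr : ℕ → ℤ → Matrix ι ι ℝ) (v : ι → ℝ) (k : ℕ) (q : ℤ) : ℝ :=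
  v ⬝ᵥ ET l K M Kr k q *ᵥ v

variable {K : ℕ} {M : ℤ} {Gr Kr : ℕ → ℤ → Matrix ι ι ℝ}

theorem drift_wX (l : ℝ) (K : ℕ) (M : ℤ) (Kr : ℕ → ℤ → Matrix ι ι ℝ) (v : ι → ℝ) :
    Drift K (wX l K M Kr v) (eX l K M Kr v) :=
  (H652.WT_drift l K M Kr).map (qf v)

theorem wX_nonneg (h : Tr l K Gr Kr) (v : ι → ℝ) (k : ℕ) (q : ℤ) : 0 ≤ wX l K M Kr v k q :=
  H420.quad_nonneg (H652.WT_psd h k q) v

theorem eX_nonneg (h : Tr l K Gr Kr) (v : ι → ℝ) (k : ℕ) (q : ℤ) : 0 ≤ eX l K M Kr v k q :=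
  H420.quad_nonneg (H652.ET_psd h k q) v

theorem wX_out (v : ι → ℝ) {k : ℕ} {q : ℤ} (hq : q ∉ iv (K - k) M) : wX l K M Kr v k q = 0 := by
  unfold wX
  rw [H652.WT_out hq, zero_mulVec, dotProduct_zero]

theorem wX_le (h : Tr l K Gr Kr) (v : ι → ℝ) (k : ℕ) (q : ℤ) : wX l K M Kr v k q ≤ v ⬝ᵥ v := by
  have h1 := H420.quad_nonneg (H652.WT_le_one (M := M) h k q) v
  rw [sub_mulVec, one_mulVec, dotProduct_sub] at h1
  unfold wX
  linarith

theorem wX_root (h : Tr l K Gr Kr) (v : ι → ℝ) :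
    wX l K M Kr v K M ≤ (2 * l)⁻¹ * (v ⬝ᵥ Gr K M *ᵥ v) := by
  have hM : M ∈ iv (K - K) M := by
    rw [Nat.sub_self, mem_iv]
    unfold PL.ix
    simp
  have h1 := H186.one_sub_le (h.pdK K M) h.l_pos (h.sq K M) v
  unfold wX
  rw [H652.WT_in hM, sub_mulVec, one_mulVec, smul_mulVec, dotProduct_sub, dotProduct_smul,
    smul_eq_mul, inv_mul_eq_div]
  exact h1

/-- the sum over a cell, points -/
theorem sum_iv_shift (k : ℕ) (q : ℤ) (f : ℤ → ℝ) :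
    ∑ y ∈ iv k q, f y = ∑ y ∈ range (2 ^ k), f (2 ^ k * q + y) := by
  have e : iv k q = (range (2 ^ k)).image (fun y : ℕ => 2 ^ k * q + (y : ℤ)) := by
    ext z
    unfold PL.iv
    rw [mem_Ico, mem_image]
    constructor
    · rintro ⟨h1, h2⟩
      refine ⟨(z - 2 ^ k * q).toNat, ?_, by omega⟩
      rw [mem_range]
      have : ((z - 2 ^ k * q).toNat : ℤ) < 2 ^ k := by omega
      exact_mod_cast this
    · rintro ⟨y, hy, rfl⟩
      rw [mem_range] at hy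
      have : (y : ℤ) < 2 ^ k := by exact_mod_cast hy
      omega
  rw [e, sum_image]
  intro a _ b _ h
  simp only at h
  omega

/-- the density over a cell -/
theorem cell_gw {w E : ℕ → ℤ → ℝ} (h : Drift K w E) {k : ℕ} (hk : k ≤ K) (q : ℤ) :
    ∑ y ∈ iv k q, gw w E k y = 2 ^ k * w k q := by
  rw [sum_iv_shift, H652.sum_cell h k hk q, smul_eq_mul]

/-- the densities increase -/
theorem gw_mono {w E : ℕ → ℤ → ℝ} (hE : ∀ k q, 0 ≤ E k q) {k : ℕ} (hk : k ≤ K) (y : ℤ) :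
    gw w E k y ≤ gw w E K y := by
  unfold H652.gw
  refine add_le_add le_rfl (sum_le_sum_of_subset_of_nonneg (Icc_subset_Icc_right hk)
    fun j _ _ => hE j _)

/-! ### One scale, fixed `(x1, x3)` -/

/-- the window of `Th` in the four tied cells -/
theorem Th_four (h : Tr l K Gr Kr) (v : ι → ℝ) {k : ℕ} (hk : k ≤ K) (c x0 x1 m3 : ℤ) :
    v ⬝ᵥ Th l K M Kr c x0 x1 k m3 *ᵥ v ≤ ∑ d ∈ range 4,
      wX l K M Kr v k (ix k (c + 2) - ix k x0 - ix k x1 - m3 - (d : ℤ)) := by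
  have h1 := H420.quad_nonneg (H652.Th_le (M := M) h c x0 x1 hk m3) v
  rw [sub_mulVec, add_mulVec, dotProduct_sub, dotProduct_add] at h1
  set q := st c x0 x1 k m3 / 2 ^ k with hq
  have hn : ∀ q, 0 ≤ wX l K M Kr v k q := fun q => wX_nonneg h v k q
  have h2 : v ⬝ᵥ Th l K M Kr c x0 x1 k m3 *ᵥ v ≤ wX l K M Kr v k q + wX l K M Kr v k (q + 1) := by
    unfold wX
    linarith
  refine h2.trans ?_
  have hp : (0 : ℤ) < 2 ^ k := by positivity
  have a0 : x0 ∈ iv k (ix k x0) := mem_iv.2 rfl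
  have a1 : x1 ∈ iv k (ix k x1) := mem_iv.2 rfl
  have a2 : c + 2 ∈ iv k (ix k (c + 2)) := mem_iv.2 rfl
  unfold PL.iv at a0 a1 a2
  rw [mem_Ico] at a0 a1 a2
  set W := ix k (c + 2) with hW
  set j := ix k x0 with hj
  set i := ix k x1 with hi
  have e1 : st c x0 x1 k m3 = c + 1 - x0 - x1 - (2 ^ k * m3 + 2 ^ k) := by
    unfold H652.st
    ring
  have b1 : W - j - i - m3 - 3 ≤ q := by
    rw [hq, Int.le_ediv_iff_mul_le hp, e1]
    have e2 : (W - j - i - m3 - 3) * 2 ^ k =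
        2 ^ k * W - 2 ^ k * j - 2 ^ k * i - 2 ^ k * m3 - 3 * 2 ^ k := by ring
    rw [e2]
    omega
  have b2 : q < W - j - i - m3 := by
    rw [hq, Int.ediv_lt_iff_lt_mul hp, e1]
    have e2 : (W - j - i - m3) * 2 ^ k =
        2 ^ k * W - 2 ^ k * j - 2 ^ k * i - 2 ^ k * m3 := by ring
    rw [e2]
    omega
  rw [sum_range_succ, sum_range_succ, sum_range_succ, sum_range_one]
  push_cast
  have n0 := hn (W - j - i - m3 - 0)
  have n1 := hn (W - j - i - m3 - 1)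
  have n2 := hn (W - j - i - m3 - 2)
  have n3 := hn (W - j - i - m3 - 3)
  rcases (by omega : q = W - j - i - m3 - 1 ∨ q = W - j - i - m3 - 2 ∨ q = W - j - i - m3 - 3)
    with h3 | h3 | h3
  · have h4 : q + 1 = W - j - i - m3 - 0 := by omega
    rw [h4, h3]
    linarith
  · have h4 : q + 1 = W - j - i - m3 - 1 := by omega
    rw [h4, h3]
    linarith
  · have h4 : q + 1 = W - j - i - m3 - 2 := by omega
    rw [h4, h3]
    linarith

/-- **One scale, one pair `(x1, x3)`.** -/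
theorem aff_line (h : Tr l K Gr Kr) (v : ι → ℝ) {k : ℕ} (hk : k ≤ K) (c t x1 x3 : ℤ)
    (A : ℕ → Pt → Prop) {e : ℝ} (he : 0 ≤ e) {Z : ℤ → ℝ}
    (hZ : ∀ m, ∑ x0 ∈ iv k m, Z x0 ^ 2 ≤ e * 2 ^ k) :
    ∑ x0 ∈ iv K t, (if A k (cx k (x0, x1, x3)) then Z x0 ^ 2 *
      (v ⬝ᵥ Th l K M Kr c x0 x1 k (ix k x3) *ᵥ v) else 0) ≤
    e * ∑ d ∈ range 4, ∑ y ∈ iv K M, (if AD (c + 2) A d k (cx k (y, x1, x3)) then
      wX l K M Kr v k (ix k y) else 0) := by
  have hn : ∀ q, 0 ≤ wX l K M Kr v k q := fun q => wX_nonneg h v k q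
  set X : ℤ → ℝ := fun q => wX l K M Kr v k q with hX
  set i1 := ix k x1 with hi1
  set i3 := ix k x3 with hi3
  set W := ix k (c + 2) with hW
  rw [iv_part hk]
  have h1 : ∀ j ∈ iv (K - k) t, ∑ x0 ∈ iv k j, (if A k (cx k (x0, x1, x3)) then Z x0 ^ 2 *
      (v ⬝ᵥ Th l K M Kr c x0 x1 k i3 *ᵥ v) else 0) ≤
      ∑ d ∈ range 4, (if A k (j, i1, i3) then e * 2 ^ k * X (W - j - i1 - i3 - (d : ℤ)) else 0) := by
    intro j _
    have hcx : ∀ x0 ∈ iv k j, cx k (x0, x1, x3) = (j, i1, i3) := by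
      intro x0 h0
      rw [mem_iv] at h0
      unfold PL.cx
      rw [h0]
    by_cases ha : A k (j, i1, i3)
    · have h2 : ∀ x0 ∈ iv k j, (if A k (cx k (x0, x1, x3)) then Z x0 ^ 2 *
          (v ⬝ᵥ Th l K M Kr c x0 x1 k i3 *ᵥ v) else 0) ≤
          Z x0 ^ 2 * ∑ d ∈ range 4, X (W - j - i1 - i3 - (d : ℤ)) := by
        intro x0 h0
        rw [hcx x0 h0, if_pos ha]
        have h3 := Th_four (M := M) h v hk c x0 x1 i3
        rw [mem_iv.1 h0] at h3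
        exact mul_le_mul_of_nonneg_left h3 (sq_nonneg _)
      refine (sum_le_sum h2).trans ?_
      rw [← sum_mul]
      have h4 : 0 ≤ ∑ d ∈ range 4, X (W - j - i1 - i3 - (d : ℤ)) :=
        sum_nonneg fun d _ => hn _
      refine (mul_le_mul_of_nonneg_right (hZ j) h4).trans (le_of_eq ?_)
      rw [mul_sum]
      exact sum_congr rfl fun d _ => by rw [if_pos ha]
    · refine le_of_eq ?_
      rw [sum_eq_zero fun x0 h0 => by rw [hcx x0 h0, if_neg ha],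
        sum_eq_zero fun d _ => if_neg ha]
  refine (sum_le_sum h1).trans ?_
  rw [sum_comm, mul_sum]
  refine sum_le_sum fun d _ => ?_
  have h5 : ∑ y ∈ iv K M, (if AD (c + 2) A d k (cx k (y, x1, x3)) then X (ix k y) else 0) =
      2 ^ k * ∑ q ∈ iv (K - k) M, (if A k (W - q - i1 - i3 - d, i1, i3) then X q else 0) := by
    have := iv_const hk M (fun q => if A k (W - q - i1 - i3 - d, i1, i3) then X q else 0)
    rw [← this]
    rfl
  rw [h5]
  set F : ℤ → ℝ := fun q => if A k (W - q - i1 - i3 - d, i1, i3) then X q else 0 with hF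
  have h6 : ∀ j, (if A k (j, i1, i3) then e * 2 ^ k * X (W - j - i1 - i3 - (d : ℤ)) else 0) =
      e * 2 ^ k * F (W - j - i1 - i3 - d) := by
    intro j
    rw [hF]
    simp only
    have e7 : W - (W - j - i1 - i3 - (d : ℤ)) - i1 - i3 - d = j := by ring
    rw [e7]
    split_ifs
    · rfl
    · rw [mul_zero]
  rw [sum_congr rfl fun j _ => h6 j, ← mul_sum, ← mul_assoc]
  refine mul_le_mul_of_nonneg_left ?_ (by positivity)
  have hF0 : ∀ q, 0 ≤ F q := fun q => by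
    rw [hF]
    simp only
    split_ifs
    · exact hn q
    · exact le_rfl
  have hFo : ∀ q, q ∉ iv (K - k) M → F q = 0 := fun q hq => by
    rw [hF]
    simp only
    rw [hX]
    simp only
    rw [wX_out v hq, ite_self]
  have e8 : ∑ j ∈ iv (K - k) t, F (W - j - i1 - i3 - d) =
      ∑ q ∈ (iv (K - k) t).image (fun j => W - j - i1 - i3 - (d : ℤ)), F q := by
    rw [sum_image]
    intro a _ b _ hab
    simp only at hab
    omega
  rw [e8]
  set S := (iv (K - k) t).image (fun j => W - j - i1 - i3 - (d : ℤ)) with hS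
  rw [← sum_filter_add_sum_filter_not S (fun q => q ∈ iv (K - k) M),
    sum_eq_zero (s := S.filter fun q => ¬ q ∈ iv (K - k) M)
      (fun q hq => hFo q (mem_filter.1 hq).2), add_zero]
  exact sum_le_sum_of_subset_of_nonneg (fun q hq => (mem_filter.1 hq).2) fun q _ _ => hF0 q

/-! ### The sum -/

/-- **The weight `Th` on the affected cells.** -/
theorem aff_Th {M1 M2 M3 : ℤ} {G Kq : ℤ → ℕ → ℤ → Matrix ι ι ℝ}
    (hT : ∀ x1 ∈ iv K M1, Tr l K (G x1) (Kq x1)) {A : ℕ → Pt → Prop} {cP : ℝ} (hP : 0 ≤ cP)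
    (hA : GP A K cP) {e : ℝ} (he : 0 ≤ e) {Z : ℕ → Pt → ℝ} (hZ : Lin K e Z)
    (v : ℤ → ℤ → ι → ℝ) {τ : ℝ} (hτ : 0 ≤ τ)
    (hm : ∀ k ≤ K, ∀ m : Pt, m.2.1 ∈ iv (K - k) M1 → m.2.2 ∈ iv (K - k) M3 → A k m →
      ∑ x1 ∈ iv k m.2.1, ∑ x3 ∈ iv k m.2.2, v x1 x3 ⬝ᵥ v x1 x3 ≤ τ * 4 ^ k)
    {h : ℕ} (hh : 1 ≤ h) (hPh : 2 * (4 * cP) ≤ h) (q : ℕ) (c t : ℤ) :
    ∑ k ∈ range (K + 1), ∑ x ∈ cb K (t, M1, M3), (if A k (cx k x) then Z k x ^ 2 *
      (v x.2.1 x.2.2 ⬝ᵥ Th l K M2 (Kq x.2.1) c x.1 x.2.1 k (ix k x.2.2) *ᵥ v x.2.1 x.2.2)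
        else 0) ≤
      4 * e * ((1 + h * q) * (2 ^ K * ∑ x1 ∈ iv K M1, ∑ x3 ∈ iv K M3,
        (2 * l)⁻¹ * (v x1 x3 ⬝ᵥ G x1 K M2 *ᵥ v x1 x3)) +
        τ * (4 * cP) * (1 / 2) ^ q * 8 ^ K) := by
  set f : ℕ → Pt → ℝ := fun k y => wX l K M2 (Kq y.2.1) (v y.2.1 y.2.2) k (ix k y.1) with hf
  set F : Pt → ℝ := fun y => gw (wX l K M2 (Kq y.2.1) (v y.2.1 y.2.2))
    (eX l K M2 (Kq y.2.1) (v y.2.1 y.2.2)) K y.1 with hF
  have mem1 : ∀ {x : Pt}, x ∈ cb K (M2, M1, M3) → x.2.1 ∈ iv K M1 := fun {x} hx => by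
    unfold PL.cb at hx
    exact (mem_product.1 (mem_product.1 hx).2).1
  have mem_up : ∀ {k : ℕ}, k ≤ K → ∀ {x y : Pt}, x ∈ cb K (M2, M1, M3) → y ∈ cb k (cx k x) →
      y ∈ cb K (M2, M1, M3) := fun {k} hk {x y} hx hy => by
    rw [mem_cb] at hx hy ⊢
    rw [H460.cx_le hk hy]
    exact hx
  have step1 : ∑ k ∈ range (K + 1), ∑ x ∈ cb K (t, M1, M3), (if A k (cx k x) then Z k x ^ 2 *
      (v x.2.1 x.2.2 ⬝ᵥ Th l K M2 (Kq x.2.1) c x.1 x.2.1 k (ix k x.2.2) *ᵥ v x.2.1 x.2.2)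
        else 0) ≤ ∑ d ∈ range 4, e * ∑ k ∈ range (K + 1), ∑ y ∈ cb K (M2, M1, M3),
        (if AD (c + 2) A d k (cx k y) then f k y else 0) := by
    rw [sum_congr rfl fun d _ => mul_sum _ _ _, sum_comm (s := range 4)]
    refine sum_le_sum fun k hk => ?_
    have hk' : k ≤ K := by rw [mem_range] at hk; omega
    have e1 : ∑ x ∈ cb K (t, M1, M3), (if A k (cx k x) then Z k x ^ 2 *
        (v x.2.1 x.2.2 ⬝ᵥ Th l K M2 (Kq x.2.1) c x.1 x.2.1 k (ix k x.2.2) *ᵥ v x.2.1 x.2.2)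
          else 0) = ∑ x1 ∈ iv K M1, ∑ x3 ∈ iv K M3, ∑ x0 ∈ iv K t,
        (if A k (cx k (x0, x1, x3)) then Z k (x0, x1, x3) ^ 2 *
          (v x1 x3 ⬝ᵥ Th l K M2 (Kq x1) c x0 x1 k (ix k x3) *ᵥ v x1 x3) else 0) := by
      unfold PL.cb
      rw [sum_product]
      simp only [sum_product]
      rw [sum_comm]
      refine sum_congr rfl fun x1 _ => ?_
      rw [sum_comm]
    have e2 : ∀ d : ℕ, ∑ y ∈ cb K (M2, M1, M3),
        (if AD (c + 2) A d k (cx k y) then f k y else 0) = ∑ x1 ∈ iv K M1, ∑ x3 ∈ iv K M3,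
        ∑ y ∈ iv K M2, (if AD (c + 2) A d k (cx k (y, x1, x3)) then
          wX l K M2 (Kq x1) (v x1 x3) k (ix k y) else 0) := by
      intro d
      unfold PL.cb
      rw [sum_product]
      simp only [sum_product]
      rw [sum_comm]
      refine sum_congr rfl fun x1 _ => ?_
      rw [sum_comm]
    have e4 : ∑ d ∈ range 4, e * ∑ y ∈ cb K (M2, M1, M3),
        (if AD (c + 2) A d k (cx k y) then f k y else 0) =
        ∑ d ∈ range 4, e * ∑ x1 ∈ iv K M1, ∑ x3 ∈ iv K M3,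
        ∑ y ∈ iv K M2, (if AD (c + 2) A d k (cx k (y, x1, x3)) then
          wX l K M2 (Kq x1) (v x1 x3) k (ix k y) else 0) :=
      sum_congr rfl fun d _ => by rw [e2 d]
    rw [e1, e4]
    have e3 : ∑ d ∈ range 4, e * ∑ x1 ∈ iv K M1, ∑ x3 ∈ iv K M3,
        ∑ y ∈ iv K M2, (if AD (c + 2) A d k (cx k (y, x1, x3)) then
          wX l K M2 (Kq x1) (v x1 x3) k (ix k y) else 0) =
        ∑ x1 ∈ iv K M1, ∑ x3 ∈ iv K M3, e * ∑ d ∈ range 4, ∑ y ∈ iv K M2,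
          (if AD (c + 2) A d k (cx k (y, x1, x3)) then
          wX l K M2 (Kq x1) (v x1 x3) k (ix k y) else 0) := by
      rw [← mul_sum, sum_comm, mul_sum]
      refine sum_congr rfl fun x1 _ => ?_
      rw [sum_comm, mul_sum]
    rw [e3]
    refine sum_le_sum fun x1 h1 => sum_le_sum fun x3 _ => ?_
    exact aff_line (hT x1 h1) (v x1 x3) hk' c t x1 x3 A he (fun m => hZ k hk' m x1 x3)
  refine step1.trans ?_
  have step2 : ∀ d ∈ range 4, e * ∑ k ∈ range (K + 1), ∑ y ∈ cb K (M2, M1, M3),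
      (if AD (c + 2) A d k (cx k y) then f k y else 0) ≤
      e * ((1 + h * q) * (2 ^ K * ∑ x1 ∈ iv K M1, ∑ x3 ∈ iv K M3,
        (2 * l)⁻¹ * (v x1 x3 ⬝ᵥ G x1 K M2 *ᵥ v x1 x3)) +
        τ * (4 * cP) * (1 / 2) ^ q * 8 ^ K) := by
    intro d hd
    rw [mem_range] at hd
    refine mul_le_mul_of_nonneg_left ?_ he
    refine (tree_aff (lpack_AD hA (c + 2) hd (M2, M1, M3)) (by positivity) hh hPh q hτ f F
      ?_ ?_ ?_).trans ?_
    · intro x hx
      have hx1 := mem1 hx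
      rw [hF]
      simp only
      unfold H652.gw
      exact add_nonneg (wX_nonneg (hT _ hx1) _ _ _)
        (sum_nonneg fun j _ => eX_nonneg (hT _ hx1) _ _ _)
    · intro k hk x hx _
      set m := cx k x with hmx
      have hc : ∀ g : Pt → ℝ, ∑ y ∈ cb k m, g y =
          ∑ y1 ∈ iv k m.2.1, ∑ y3 ∈ iv k m.2.2, ∑ y0 ∈ iv k m.1, g (y0, y1, y3) := by
        intro g
        unfold PL.cb
        rw [sum_product]
        simp only [sum_product]
        rw [sum_comm]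
        refine sum_congr rfl fun y1 _ => ?_
        rw [sum_comm]
      rw [hc, hc]
      refine sum_le_sum fun y1 h1 => sum_le_sum fun y3 h3 => ?_
      have hy1 : y1 ∈ iv K M1 := by
        have h4 : (x.1, y1, y3) ∈ cb k m := by
          rw [mem_cb]
          unfold PL.cx
          rw [mem_iv.1 h1, mem_iv.1 h3]
          rfl
        exact mem1 (mem_up hk hx h4)
      have hTr := hT y1 hy1
      have e4 : ∑ y0 ∈ iv k m.1, f k (y0, y1, y3) =
          ∑ y0 ∈ iv k m.1, gw (wX l K M2 (Kq y1) (v y1 y3)) (eX l K M2 (Kq y1) (v y1 y3)) k y0 := by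
        rw [cell_gw (drift_wX l K M2 (Kq y1) (v y1 y3)) hk]
        rw [hf]
        simp only
        rw [sum_congr rfl fun y0 h0 => by rw [mem_iv.1 h0], sum_const, card_iv, nsmul_eq_mul]
        push_cast
        rfl
      rw [e4]
      exact sum_le_sum fun y0 _ => gw_mono (fun k q => eX_nonneg hTr _ k q) hk y0
    · intro k hk x hx ha
      set m := cx k x with hmx
      have hx1 : m.2.1 ∈ iv (K - k) M1 := by
        have := mem_cb.1 hx
        rw [mem_iv]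
        show ix (K - k) (ix k x.2.1) = _
        rw [ix_ix, Nat.add_sub_cancel' hk]
        exact congrArg (fun p : Pt => p.2.1) this
      have hx3 : m.2.2 ∈ iv (K - k) M3 := by
        have := mem_cb.1 hx
        rw [mem_iv]
        show ix (K - k) (ix k x.2.2) = _
        rw [ix_ix, Nat.add_sub_cancel' hk]
        exact congrArg (fun p : Pt => p.2.2) this
      have h2 := hm k hk (ix k (c + 2) - m.1 - m.2.1 - m.2.2 - d, m.2.1, m.2.2) hx1 hx3 ha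
      simp only at h2
      have h3 : ∑ y ∈ cb k m, f k y ≤ ∑ y ∈ cb k m, v y.2.1 y.2.2 ⬝ᵥ v y.2.1 y.2.2 := by
        refine sum_le_sum fun y hy => ?_
        exact wX_le (hT _ (mem1 (mem_up hk hx hy))) _ _ _
      have h4 : ∑ y ∈ cb k m, v y.2.1 y.2.2 ⬝ᵥ v y.2.1 y.2.2 =
          2 ^ k * ∑ x1 ∈ iv k m.2.1, ∑ x3 ∈ iv k m.2.2, v x1 x3 ⬝ᵥ v x1 x3 := by
        unfold PL.cb
        rw [sum_product]
        simp only [sum_product]
        rw [sum_const, card_iv, nsmul_eq_mul]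
        push_cast
        rfl
      refine h3.trans ?_
      rw [h4, show (8 : ℝ) ^ k = 2 ^ k * 4 ^ k by rw [← mul_pow]; norm_num]
      calc 2 ^ k * ∑ x1 ∈ iv k m.2.1, ∑ x3 ∈ iv k m.2.2, v x1 x3 ⬝ᵥ v x1 x3 ≤
            2 ^ k * (τ * 4 ^ k) := mul_le_mul_of_nonneg_left h2 (by positivity)
        _ = τ * (2 ^ k * 4 ^ k) := by ring
    · have h5 : ∑ x ∈ cb K (M2, M1, M3), F x ≤ 2 ^ K * ∑ x1 ∈ iv K M1, ∑ x3 ∈ iv K M3,
          (2 * l)⁻¹ * (v x1 x3 ⬝ᵥ G x1 K M2 *ᵥ v x1 x3) := by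
        have e5 : ∑ x ∈ cb K (M2, M1, M3), F x = ∑ x1 ∈ iv K M1, ∑ x3 ∈ iv K M3,
            ∑ y ∈ iv K M2, gw (wX l K M2 (Kq x1) (v x1 x3)) (eX l K M2 (Kq x1) (v x1 x3)) K y := by
          unfold PL.cb
          rw [sum_product]
          simp only [sum_product]
          rw [sum_comm]
          refine sum_congr rfl fun x1 _ => ?_
          rw [sum_comm]
        rw [e5, mul_sum]
        refine sum_le_sum fun x1 h1 => ?_
        rw [mul_sum]
        refine sum_le_sum fun x3 _ => ?_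
        rw [cell_gw (drift_wX l K M2 (Kq x1) (v x1 x3)) le_rfl]
        exact mul_le_mul_of_nonneg_left (wX_root (hT x1 h1) _) (by positivity)
      have h6 : (0 : ℝ) ≤ 1 + h * q := by positivity
      have h7 := mul_le_mul_of_nonneg_left h5 h6
      linarith
  refine (sum_le_sum step2).trans (le_of_eq ?_)
  rw [sum_const, card_range, nsmul_eq_mul]
  push_cast
  ring

/-- **The weight `β + Th` on the affected cells.** -/
theorem aff_W {M1 M2 M3 : ℤ} {G Kq : ℤ → ℕ → ℤ → Matrix ι ι ℝ}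
    (hT : ∀ x1 ∈ iv K M1, Tr l K (G x1) (Kq x1)) {A : ℕ → Pt → Prop} {cP : ℝ} (hP : 0 ≤ cP)
    (hA : GP A K cP) {e : ℝ} (he : 0 ≤ e) {Z : ℕ → Pt → ℝ} (hZ : Lin K e Z)
    (v : ℤ → ℤ → ι → ℝ) {τ : ℝ} (hτ : 0 ≤ τ)
    (hm : ∀ k ≤ K, ∀ m : Pt, m.2.1 ∈ iv (K - k) M1 → m.2.2 ∈ iv (K - k) M3 → A k m →
      ∑ x1 ∈ iv k m.2.1, ∑ x3 ∈ iv k m.2.2, v x1 x3 ⬝ᵥ v x1 x3 ≤ τ * 4 ^ k)
    {h : ℕ} (hh : 1 ≤ h) (hPh : 2 * (4 * cP) ≤ h) (q : ℕ) (c t : ℤ) {β : ℝ} (hβ : 0 ≤ β) :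
    ∑ k ∈ range (K + 1), ∑ x ∈ cb K (t, M1, M3), (if A k (cx k x) then Z k x ^ 2 *
      (v x.2.1 x.2.2 ⬝ᵥ (β • (1 : Matrix ι ι ℝ) +
        Th l K M2 (Kq x.2.1) c x.1 x.2.1 k (ix k x.2.2)) *ᵥ v x.2.1 x.2.2) else 0) ≤
      β * (e * τ * cP * 8 ^ K) +
      4 * e * ((1 + h * q) * (2 ^ K * ∑ x1 ∈ iv K M1, ∑ x3 ∈ iv K M3,
        (2 * l)⁻¹ * (v x1 x3 ⬝ᵥ G x1 K M2 *ᵥ v x1 x3)) +
        τ * (4 * cP) * (1 / 2) ^ q * 8 ^ K) := by
  have h1 := aff_Th (M2 := M2) hT hP hA he hZ v hτ hm hh hPh q c t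
  have h2 := aff_one hA he hZ (t, M1, M3) hτ (fun x1 x3 => v x1 x3 ⬝ᵥ v x1 x3)
    (fun a b => sum_nonneg fun i _ => mul_self_nonneg _) hm
  have h3 := mul_le_mul_of_nonneg_left h2 hβ
  refine le_trans (le_of_eq ?_) (add_le_add h3 h1)
  rw [mul_sum, ← sum_add_distrib]
  refine sum_congr rfl fun k _ => ?_
  rw [mul_sum, ← sum_add_distrib]
  refine sum_congr rfl fun x _ => ?_
  split_ifs
  · rw [add_mulVec, dotProduct_add, smul_mulVec, one_mulVec, dotProduct_smul, smul_eq_mul]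
    ring
  · ring

end

end Vale.Agent.P141.H28.AffI
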