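import Vale.Agent.P141.H460.AffV

/-!
# P141, line (A): affected cells in the tree of `(x2, x1, x3)`

`A k (j, i1, i3)` : affected cells of `(x0, x1, x3)`, packing `GP` in every cell (= `H460.GPack`,
so `H460.gpack_aff` gives it for the nodes over affected squares of the three faces).
`AD c A d k (q, i1, i3) := A k (ix k c - q - i1 - i3 - d, i1, i3)` : the tied cells of
`(x2, x1, x3)`.

* `tie4` : the tied cells lie over four cells;
* `lpack_AD` : local packing of `AD`, constant `4 cP`;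
* `aff_one` : the charge of a static slot on the affected cells.
-/

namespace Vale.Agent.P141.H28.AffI

open Finset
open Vale.Agent.P141.PL (Pt iv ix cb cx mem_iv mem_cb card_iv card_cb ix_ix)
open Vale.Agent.P141.H460 (QPack LPack Lin iv_part iv_const ix_mem pack2)

noncomputable section

open scoped Classical

/-- local packing in every cell (= `H460.GPack`) -/
def GP (A : ℕ → Pt → Prop) (K : ℕ) (P : ℝ) : Prop :=
  ∀ k ≤ K, ∀ m : Pt, ∑ y ∈ cb k m, ∑ j ∈ range (k + 1),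
    (if A j (cx j y) then (1 : ℝ) else 0) ≤ P * 8 ^ k

theorem GP.of_QPack {A : ℕ → Pt → Prop} {K : ℕ} {P : ℝ} (h : QPack K A P) : GP A K P :=
  fun _ hk m => pack2 h hk m

/-- the tied cells -/
def AD (c : ℤ) (A : ℕ → Pt → Prop) (d : ℕ) (k : ℕ) (m : Pt) : Prop :=
  A k (ix k c - m.1 - m.2.1 - m.2.2 - d, m.2.1, m.2.2)

/-- the tied cells lie over four cells -/
theorem tie4 {r : ℕ} {w W q i1 i3 a b : ℤ} (hw : ix r w = W) (ha : a ∈ iv r i1)
    (hb : b ∈ iv r i3) {d : ℕ} (hd : d < 4) (φ : ℤ → ℝ) (hφ : ∀ x, 0 ≤ φ x) :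
    ∑ p ∈ iv r q, φ (w - p - a - b - d) ≤
      ∑ i ∈ range 4, ∑ x ∈ iv r (W - q - i1 - i3 - (i : ℤ)), φ x := by
  have h1 : ∑ p ∈ iv r q, φ (w - p - a - b - d) =
      ∑ x ∈ (iv r q).image (fun p => w - p - a - b - d), φ x := by
    rw [sum_image]
    intro p _ p' _ h
    simp only at h
    omega
  have h2 : ∑ i ∈ range 4, ∑ x ∈ iv r (W - q - i1 - i3 - (i : ℤ)), φ x =
      ∑ x ∈ (range 4).biUnion (fun i => iv r (W - q - i1 - i3 - (i : ℤ))), φ x := by
    rw [sum_biUnion]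
    intro i _ j _ hij
    rw [Function.onFun, disjoint_left]
    intro x hx hx'
    rw [mem_iv] at hx hx'
    apply hij
    have : W - q - i1 - i3 - (i : ℤ) = W - q - i1 - i3 - (j : ℤ) := hx.symm.trans hx'
    omega
  rw [h1, h2]
  refine sum_le_sum_of_subset_of_nonneg ?_ fun x _ _ => hφ x
  intro x hx
  obtain ⟨p, hp, rfl⟩ := mem_image.1 hx
  rw [mem_biUnion]
  have hw' : w ∈ iv r W := mem_iv.2 hw
  unfold PL.iv at hp ha hb hw' ⊢
  rw [mem_Ico] at hp ha hb hw'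
  have hD : (1 : ℤ) ≤ 2 ^ r := by
    have : (0 : ℤ) < 2 ^ r := by positivity
    omega
  set D : ℤ := 2 ^ r with hDe
  have e0 : ∀ i : ℤ, D * (W - q - i1 - i3 - i) = D * W - D * q - D * i1 - D * i3 - D * i := by
    intro i
    ring
  have c0 : D * ((0 : ℕ) : ℤ) = 0 := by simp
  have c1 : D * ((1 : ℕ) : ℤ) = D := by simp
  have c2 : D * ((2 : ℕ) : ℤ) = 2 * D := by push_cast; ring
  have c3 : D * ((3 : ℕ) : ℤ) = 3 * D := by push_cast; ring
  generalize D * W = p0 at *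
  generalize D * q = p1 at *
  generalize D * i1 = p2 at *
  generalize D * i3 = p3 at *
  rcases lt_or_ge (w - p - a - b - d) (p0 - p1 - p2 - p3 - 2 * D) with h | h
  · refine ⟨3, by simp, ?_⟩
    rw [mem_Ico, e0, c3]
    constructor <;> omega
  · rcases lt_or_ge (w - p - a - b - d) (p0 - p1 - p2 - p3 - D) with h' | h'
    · refine ⟨2, by simp, ?_⟩
      rw [mem_Ico, e0, c2]
      constructor <;> omega
    · rcases lt_or_ge (w - p - a - b - d) (p0 - p1 - p2 - p3) with h'' | h''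
      · refine ⟨1, by simp, ?_⟩
        rw [mem_Ico, e0, c1]
        constructor <;> omega
      · refine ⟨0, by simp, ?_⟩
        rw [mem_Ico, e0, c0]
        constructor <;> omega

/-- the points over a fixed pair `(y1, y3)` -/
theorem AD_line {c : ℤ} {A : ℕ → Pt → Prop} {d : ℕ} (hd : d < 4) {j k : ℕ} (hj : j ≤ k) {m : Pt}
    {y1 y3 : ℤ} (h1 : y1 ∈ iv k m.2.1) (h3 : y3 ∈ iv k m.2.2) :
    ∑ y0 ∈ iv k m.1, (if AD c A d j (cx j (y0, y1, y3)) then (1 : ℝ) else 0) ≤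
      ∑ i ∈ range 4, ∑ y0 ∈ iv k (ix k c - m.1 - m.2.1 - m.2.2 - (i : ℤ)),
        (if A j (cx j (y0, y1, y3)) then (1 : ℝ) else 0) := by
  have e1 := iv_const hj m.1 (fun a => if AD c A d j (a, ix j y1, ix j y3) then (1 : ℝ) else 0)
  have e2 : ∑ y0 ∈ iv k m.1, (if AD c A d j (cx j (y0, y1, y3)) then (1 : ℝ) else 0) =
      ∑ y0 ∈ iv k m.1, (fun a => if AD c A d j (a, ix j y1, ix j y3) then (1 : ℝ) else 0)
        (ix j y0) := rfl
  rw [e2, e1]
  have e3 : ∀ i : ℕ, ∑ y0 ∈ iv k (ix k c - m.1 - m.2.1 - m.2.2 - (i : ℤ)),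
      (if A j (cx j (y0, y1, y3)) then (1 : ℝ) else 0) =
      2 ^ j * ∑ a ∈ iv (k - j) (ix k c - m.1 - m.2.1 - m.2.2 - (i : ℤ)),
        (fun a => if A j (a, ix j y1, ix j y3) then (1 : ℝ) else 0) a := fun i =>
    iv_const hj _ (fun a => if A j (a, ix j y1, ix j y3) then (1 : ℝ) else 0)
  rw [sum_congr rfl fun i _ => e3 i, ← mul_sum]
  refine mul_le_mul_of_nonneg_left ?_ (by positivity)
  have hw : ix (k - j) (ix j c) = ix k c := by rw [ix_ix, Nat.add_sub_cancel' hj]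
  exact tie4 hw (ix_mem hj h1) (ix_mem hj h3) hd
    (fun a => if A j (a, ix j y1, ix j y3) then (1 : ℝ) else 0)
    (fun x => by split_ifs <;> norm_num)

/-- **Local packing of the tied cells.** -/
theorem lpack_AD {A : ℕ → Pt → Prop} {K : ℕ} {cP : ℝ} (hA : GP A K cP) (c : ℤ) {d : ℕ}
    (hd : d < 4) (M : Pt) : LPack (AD c A d) K M (4 * cP) := by
  intro k hk x _ _
  set m := cx k x with hm
  have h1 : ∑ y ∈ cb k m, ∑ j ∈ range (k + 1), (if AD c A d j (cx j y) then (1 : ℝ) else 0) ≤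
      ∑ i ∈ range 4, ∑ y ∈ cb k (ix k c - m.1 - m.2.1 - m.2.2 - (i : ℤ), m.2.1, m.2.2),
        ∑ j ∈ range (k + 1), (if A j (cx j y) then (1 : ℝ) else 0) := by
    have e : ∀ (B : ℕ → Pt → Prop) (a b g : ℤ), ∑ y ∈ cb k (a, b, g), ∑ j ∈ range (k + 1),
        (if B j (cx j y) then (1 : ℝ) else 0) = ∑ j ∈ range (k + 1), ∑ y1 ∈ iv k b,
          ∑ y3 ∈ iv k g, ∑ y0 ∈ iv k a, (if B j (cx j (y0, y1, y3)) then (1 : ℝ) else 0) := by
      intro B a b g
      rw [sum_comm]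
      refine sum_congr rfl fun j _ => ?_
      unfold PL.cb
      rw [sum_product]
      simp only [sum_product]
      rw [sum_comm]
      refine sum_congr rfl fun y1 _ => ?_
      rw [sum_comm]
    have e' : cb k m = cb k (m.1, m.2.1, m.2.2) := rfl
    rw [e', e, sum_congr rfl fun i _ => e A _ _ _]
    rw [sum_comm (s := range 4)]
    refine sum_le_sum fun j hj => ?_
    have hj' : j ≤ k := by rw [mem_range] at hj; omega
    rw [sum_comm (s := range 4)]
    refine sum_le_sum fun y1 h1 => ?_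
    rw [sum_comm (s := range 4)]
    refine sum_le_sum fun y3 h3 => ?_
    exact AD_line hd hj' h1 h3
  refine h1.trans ?_
  refine (sum_le_sum fun i _ => hA k hk _).trans (le_of_eq ?_)
  rw [sum_const, card_range]
  simp
  ring

/-- **Static slot on the affected cells**: `x0`-lines `e`, local mass `τ`. -/
theorem aff_one {A : ℕ → Pt → Prop} {K : ℕ} {cP : ℝ} (hA : GP A K cP) {e : ℝ} (he : 0 ≤ e)
    {Z : ℕ → Pt → ℝ} (hZ : Lin K e Z) (M : Pt) {τ : ℝ} (hτ : 0 ≤ τ) (u : ℤ → ℤ → ℝ)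
    (hu : ∀ a b, 0 ≤ u a b)
    (hm : ∀ k ≤ K, ∀ m : Pt, m.2.1 ∈ iv (K - k) M.2.1 → m.2.2 ∈ iv (K - k) M.2.2 → A k m →
      ∑ y1 ∈ iv k m.2.1, ∑ y3 ∈ iv k m.2.2, u y1 y3 ≤ τ * 4 ^ k) :
    ∑ k ∈ range (K + 1), ∑ x ∈ cb K M, (if A k (cx k x) then Z k x ^ 2 * u x.2.1 x.2.2 else 0) ≤
      e * τ * cP * 8 ^ K := by
  have h1 : ∀ k ∈ range (K + 1), ∑ x ∈ cb K M,
      (if A k (cx k x) then Z k x ^ 2 * u x.2.1 x.2.2 else 0) ≤
      ∑ x ∈ cb K M, (if A k (cx k x) then e * τ else 0) := by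
    intro k hk
    have hk' : k ≤ K := by rw [mem_range] at hk; omega
    refine H460.cell_le hk' M (fun x => A k (cx k x)) ?_ _ _ ?_
    · intro x y e' h
      rw [← e']
      exact h
    · intro x hx h
      have hx1 : (cx k x).2.1 ∈ iv (K - k) M.2.1 := by
        have := mem_cb.1 hx
        rw [mem_iv]
        show ix (K - k) (ix k x.2.1) = _
        rw [ix_ix, Nat.add_sub_cancel' hk', ← this]
        rfl
      have hx3 : (cx k x).2.2 ∈ iv (K - k) M.2.2 := by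
        have := mem_cb.1 hx
        rw [mem_iv]
        show ix (K - k) (ix k x.2.2) = _
        rw [ix_ix, Nat.add_sub_cancel' hk', ← this]
        rfl
      have h2 := hm k hk' (cx k x) hx1 hx3 h
      rw [sum_const, card_cb, nsmul_eq_mul]
      set m := cx k x with hmx
      have h3 : ∑ y ∈ cb k m, Z k y ^ 2 * u y.2.1 y.2.2 =
          ∑ y1 ∈ iv k m.2.1, ∑ y3 ∈ iv k m.2.2, (∑ y0 ∈ iv k m.1, Z k (y0, y1, y3) ^ 2) *
            u y1 y3 := by
        unfold PL.cb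
        rw [sum_product]
        simp only [sum_product]
        rw [sum_comm]
        refine sum_congr rfl fun y1 _ => ?_
        rw [sum_comm]
        refine sum_congr rfl fun y3 _ => ?_
        rw [sum_mul]
      rw [h3]
      have h4 : ∑ y1 ∈ iv k m.2.1, ∑ y3 ∈ iv k m.2.2, (∑ y0 ∈ iv k m.1, Z k (y0, y1, y3) ^ 2) *
          u y1 y3 ≤ ∑ y1 ∈ iv k m.2.1, ∑ y3 ∈ iv k m.2.2, e * 2 ^ k * u y1 y3 :=
        sum_le_sum fun y1 _ => sum_le_sum fun y3 _ =>
          mul_le_mul_of_nonneg_right (hZ k hk' m.1 y1 y3) (hu y1 y3)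
      refine h4.trans ?_
      simp only [← mul_sum]
      push_cast
      rw [show (8 : ℝ) ^ k = 2 ^ k * 4 ^ k by rw [← mul_pow]; norm_num]
      calc e * 2 ^ k * ∑ y1 ∈ iv k m.2.1, ∑ y3 ∈ iv k m.2.2, u y1 y3 ≤
            e * 2 ^ k * (τ * 4 ^ k) := mul_le_mul_of_nonneg_left h2 (by positivity)
        _ = _ := by ring
  refine (sum_le_sum h1).trans ?_
  rw [sum_comm]
  have h5 : ∀ x ∈ cb K M, ∑ k ∈ range (K + 1), (if A k (cx k x) then e * τ else 0) =
      e * τ * ∑ k ∈ range (K + 1), (if A k (cx k x) then (1 : ℝ) else 0) := by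
    intro x _
    rw [mul_sum]
    exact sum_congr rfl fun k _ => by split_ifs <;> simp
  rw [sum_congr rfl h5, ← mul_sum]
  have h6 := hA K le_rfl M
  calc e * τ * ∑ x ∈ cb K M, ∑ k ∈ range (K + 1), (if A k (cx k x) then (1 : ℝ) else 0) ≤
        e * τ * (cP * 8 ^ K) := mul_le_mul_of_nonneg_left h6 (by positivity)
    _ = _ := by ring

end

end Vale.Agent.P141.H28.AffI
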