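import Mathlib

/-!
# P141, line (A): the middle step of the pair (A, C~) with a moving augmented slot

`C~` is the slot `(R c ; eps c)`, cut at the node by its own Gram matrix, `A` is linear.  The
functional is the ridge value `tr (pᵀ (1 + ν Y)⁻¹ p)`, `p = C~ Aᵀ`, `Y = C~ C~ᵀ`.  When the middle
cell is halved the slot moves by the left factors `1 ± N`, `N * N = 0`.  Everything of first order
is absorbed by the static gain of the same functional; what remains is `|N z|²` and `|Nᵀ z|²`.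
-/

namespace Vale.Agent.P141.H28

open Matrix

noncomputable section

variable {κ μ n : Type*} [Fintype κ] [Fintype μ] [Fintype n]

/-- inner product of matrices -/
def ip (X Y : Matrix κ μ ℝ) : ℝ := (Xᵀ * Y).trace

theorem ip_eq (X Y : Matrix κ μ ℝ) : ip X Y = ∑ j, ∑ i, X i j * Y i j := by
  simp [ip, Matrix.trace, Matrix.mul_apply]

theorem ip_comm (X Y : Matrix κ μ ℝ) : ip X Y = ip Y X := by
  simp only [ip_eq, mul_comm]

theorem ip_self_nonneg (X : Matrix κ μ ℝ) : 0 ≤ ip X X := by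
  rw [ip_eq]
  exact Finset.sum_nonneg fun _ _ => Finset.sum_nonneg fun _ _ => mul_self_nonneg _

theorem ip_add_left (X Y Z : Matrix κ μ ℝ) : ip (X + Y) Z = ip X Z + ip Y Z := by
  simp [ip, Matrix.add_mul]

theorem ip_add_right (X Y Z : Matrix κ μ ℝ) : ip X (Y + Z) = ip X Y + ip X Z := by
  simp [ip, Matrix.mul_add]

theorem ip_sub_left (X Y Z : Matrix κ μ ℝ) : ip (X - Y) Z = ip X Z - ip Y Z := by
  simp [ip, Matrix.sub_mul]

theorem ip_sub_right (X Y Z : Matrix κ μ ℝ) : ip X (Y - Z) = ip X Y - ip X Z := by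
  simp [ip, Matrix.mul_sub]

theorem ip_smul_left (r : ℝ) (X Y : Matrix κ μ ℝ) : ip (r • X) Y = r * ip X Y := by
  simp [ip]

theorem ip_smul_right (r : ℝ) (X Y : Matrix κ μ ℝ) : ip X (r • Y) = r * ip X Y := by
  simp [ip]

/-- a left factor moves to the other side -/
theorem ip_mul (N : Matrix κ κ ℝ) (X Y : Matrix κ μ ℝ) : ip X (N * Y) = ip (Nᵀ * X) Y := by
  simp [ip, Matrix.mul_assoc]

theorem ip_tmul (N : Matrix κ κ ℝ) (X Y : Matrix κ μ ℝ) : ip X (Nᵀ * Y) = ip (N * X) Y := by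
  simp [ip, Matrix.mul_assoc]

/-- `2 |<X, Y>| <= r |X|² + r⁻¹ |Y|²` -/
theorem ip_young (X Y : Matrix κ μ ℝ) {r : ℝ} (hr : 0 < r) :
    |ip X Y| ≤ r / 2 * ip X X + (2 * r)⁻¹ * ip Y Y := by
  have h1 := ip_self_nonneg (r • X - Y)
  have h2 := ip_self_nonneg (r • X + Y)
  simp only [ip_sub_left, ip_sub_right, ip_add_left, ip_add_right, ip_smul_left,
    ip_smul_right, ip_comm Y X] at h1 h2
  have e : r / 2 * ip X X + (2 * r)⁻¹ * ip Y Y = (r * (r * ip X X) + ip Y Y) / (2 * r) := by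
    field_simp
  rw [e, abs_le]
  constructor
  · rw [neg_le, le_div_iff₀ (by positivity)]; nlinarith
  · rw [le_div_iff₀ (by positivity)]; nlinarith

variable [DecidableEq κ]

/-- the ridge matrix -/
def Kr (ν : ℝ) (Y : Matrix κ κ ℝ) : Matrix κ κ ℝ := 1 + ν • Y

theorem ip_Kr (ν : ℝ) (Y : Matrix κ κ ℝ) (w : Matrix κ μ ℝ) :
    ip w (Kr ν Y * w) = ip w w + ν * ip w (Y * w) := by
  simp only [Kr, Matrix.add_mul, Matrix.one_mul, Matrix.smul_mul, ip_add_right, ip_smul_right]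

omit [DecidableEq κ] in
theorem ip_psd {Y : Matrix κ κ ℝ} (hY : Y.PosSemidef) (w : Matrix κ μ ℝ) : 0 ≤ ip w (Y * w) := by
  have h := (hY.conjTranspose_mul_mul_same w).trace_nonneg
  rw [conjTranspose_eq_transpose_of_trivial] at h
  unfold ip
  rwa [← Matrix.mul_assoc]

theorem le_ip_Kr {ν : ℝ} (hν : 0 ≤ ν) {Y : Matrix κ κ ℝ} (hY : Y.PosSemidef)
    (w : Matrix κ μ ℝ) : ip w w ≤ ip w (Kr ν Y * w) := by
  rw [ip_Kr]
  have := mul_nonneg hν (ip_psd hY w)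
  linarith

omit [Fintype κ] in
theorem Kr_symm {ν : ℝ} {Y : Matrix κ κ ℝ} (hY : Y.PosSemidef) : (Kr ν Y)ᵀ = Kr ν Y := by
  have h := hY.isHermitian
  rw [Matrix.IsHermitian, conjTranspose_eq_transpose_of_trivial] at h
  simp [Kr, h]

/-- **test inequality**: `z` the solution of `K z = p`, any test matrix `y`. -/
theorem ridge_test {ν : ℝ} {Y : Matrix κ κ ℝ} (hY : Y.PosSemidef)
    {p z : Matrix κ μ ℝ} (hz : Kr ν Y * z = p) (y : Matrix κ μ ℝ) :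
    ip p z - (2 * ip p y - ip y (Kr ν Y * y)) = ip (z - y) (Kr ν Y * (z - y)) := by
  subst hz
  have e : ip z (Kr ν Y * y) = ip (Kr ν Y * z) y := by
    rw [ip_mul, Kr_symm hY]
  rw [Matrix.mul_sub, ip_sub_left, ip_sub_right, ip_sub_right, e, ip_comm y (Kr ν Y * z),
    ip_comm (Kr ν Y * z) z]
  ring

/-- the test inequality as a lower bound -/
theorem ridge_ge {ν : ℝ} (hν : 0 ≤ ν) {Y : Matrix κ κ ℝ} (hY : Y.PosSemidef)
    {p z : Matrix κ μ ℝ} (hz : Kr ν Y * z = p) (y : Matrix κ μ ℝ) :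
    2 * ip p y - ip y (Kr ν Y * y) ≤ ip p z := by
  have h := ridge_test hY hz y
  have h2 := le_ip_Kr hν hY (z - y)
  have h3 := ip_self_nonneg (z - y)
  linarith

/-- one moved half, `M = 1 + N`, `N * N = 0` -/
theorem ridge_moved {ν : ℝ} (hν : 0 ≤ ν) {Y N : Matrix κ κ ℝ} (hY : Y.PosSemidef)
    (hN : N * N = 0) {p z z' : Matrix κ μ ℝ} (hz : Kr ν Y * z = p)
    (hz' : Kr ν ((1 + N) * Y * (1 + N)ᵀ) * z' = (1 + N) * p) :
    ip p z + 2 * ip z (Nᵀ * z) - ip (Nᵀ * z) (Nᵀ * z) ≤ ip ((1 + N) * p) z' := by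
  have hY' : ((1 + N) * Y * (1 + N)ᵀ).PosSemidef := by
    have h := hY.mul_mul_conjTranspose_same (1 + N)
    rwa [conjTranspose_eq_transpose_of_trivial] at h
  have hNt : Nᵀ * Nᵀ = 0 := by rw [← transpose_mul, hN, transpose_zero]
  have hM : (1 + N)ᵀ * ((1 - Nᵀ) * z) = z := by
    have h2 : (1 + Nᵀ) * (1 - Nᵀ) = (1 : Matrix κ κ ℝ) := by
      rw [Matrix.mul_sub, Matrix.mul_one, Matrix.add_mul, Matrix.one_mul, hNt]
      simp
    rw [← Matrix.mul_assoc, transpose_add, transpose_one, h2, Matrix.one_mul]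
  have h := ridge_ge hν hY' hz' ((1 - Nᵀ) * z)
  have e1 : ip ((1 + N) * p) ((1 - Nᵀ) * z) = ip p z := by
    rw [ip_comm, ip_mul, hM, ip_comm]
  have e2 : ip ((1 - Nᵀ) * z) (Kr ν ((1 + N) * Y * (1 + N)ᵀ) * ((1 - Nᵀ) * z))
      = ip ((1 - Nᵀ) * z) ((1 - Nᵀ) * z) + ν * ip z (Y * z) := by
    rw [ip_Kr]
    congr 2
    rw [Matrix.mul_assoc, Matrix.mul_assoc, hM, ip_mul, hM]
  have e3 : ip ((1 - Nᵀ) * z) ((1 - Nᵀ) * z)
      = ip z z - 2 * ip z (Nᵀ * z) + ip (Nᵀ * z) (Nᵀ * z) := by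
    simp only [Matrix.sub_mul, Matrix.one_mul, ip_sub_left, ip_sub_right, ip_comm (Nᵀ * z) z]
    ring
  have e4 : ip p z = ip z z + ν * ip z (Y * z) := by
    rw [ip_comm, ← hz, ip_Kr]
  rw [e1, e2, e3] at h
  linarith

/-- **middle step with a moving augmented slot**: the halves `Y0, Y1, p0, p1`, the parent is the
mean of the halves; `z, z0, z1` static solutions, `z0', z1'` the solutions of the moved halves. -/
theorem mid_ridge {ν : ℝ} (hν : 0 ≤ ν) {Y0 Y1 N : Matrix κ κ ℝ} (h0 : Y0.PosSemidef)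
    (h1 : Y1.PosSemidef) (hN : N * N = 0) {p0 p1 z z0 z1 z0' z1' : Matrix κ μ ℝ}
    (hz0 : Kr ν Y0 * z0 = p0) (hz1 : Kr ν Y1 * z1 = p1)
    (hz : Kr ν ((1 / 2 : ℝ) • (Y0 + Y1)) * z = (1 / 2 : ℝ) • (p0 + p1))
    (hz0' : Kr ν ((1 + N) * Y0 * (1 + N)ᵀ) * z0' = (1 + N) * p0)
    (hz1' : Kr ν ((1 - N) * Y1 * (1 - N)ᵀ) * z1' = (1 - N) * p1) :
    (1 / 2) * ip ((1 / 2 : ℝ) • (p0 + p1)) z + (1 / 4) * (ip p0 z0 + ip p1 z1)
      - 4 * ip (N * z) (N * z) - 5 / 2 * (ip (Nᵀ * z0) (Nᵀ * z0) + ip (Nᵀ * z1) (Nᵀ * z1))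
      ≤ (1 / 2) * (ip ((1 + N) * p0) z0' + ip ((1 - N) * p1) z1') := by
  have m0 := ridge_moved hν h0 hN hz0 hz0'
  have m1 := ridge_moved (N := -N) hν h1 (by simp [hN]) hz1
    (by rw [← sub_eq_add_neg]; exact hz1')
  rw [← sub_eq_add_neg] at m1
  simp only [transpose_neg, Matrix.neg_mul] at m1
  have n1 : ip z1 (-(N.transpose * z1)) = - ip z1 (Nᵀ * z1) := by simp [ip]
  have n2 : ip (-(Nᵀ * z1)) (-(Nᵀ * z1)) = ip (Nᵀ * z1) (Nᵀ * z1) := by simp [ip]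
  rw [n1, n2] at m1
  -- static gain
  have t0 := ridge_test h0 hz0 z
  have t1 := ridge_test h1 hz1 z
  have g0 := le_ip_Kr hν h0 (z0 - z)
  have g1 := le_ip_Kr hν h1 (z1 - z)
  have hp : ip ((1 / 2 : ℝ) • (p0 + p1)) z = (1 / 2) * (ip p0 z + ip p1 z) := by
    rw [ip_smul_left, ip_add_left]
  have hK : ip ((1 / 2 : ℝ) • (p0 + p1)) z = (1 / 2) * (ip z (Kr ν Y0 * z) + ip z (Kr ν Y1 * z)) := by
    rw [ip_comm, ← hz, ip_Kr, ip_Kr, ip_Kr, Matrix.smul_mul, ip_smul_right, Matrix.add_mul,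
      ip_add_right]
    ring
  -- first order terms
  have f0 : ip z0 (Nᵀ * z0) = ip (N * z) z + ip (N * z) (z0 - z) + ip (z0 - z) (Nᵀ * z0) := by
    rw [ip_sub_right, ip_sub_left, ip_tmul N z z0]; ring
  have f1 : ip z1 (Nᵀ * z1) = ip (N * z) z + ip (N * z) (z1 - z) + ip (z1 - z) (Nᵀ * z1) := by
    rw [ip_sub_right, ip_sub_left, ip_tmul N z z1]; ring
  have y0 := abs_le.1 (ip_young (N * z) (z0 - z) (by norm_num : (0 : ℝ) < 4))
  have y1 := abs_le.1 (ip_young (N * z) (z1 - z) (by norm_num : (0 : ℝ) < 4))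
  have y2 := abs_le.1 (ip_young (Nᵀ * z0) (z0 - z) (by norm_num : (0 : ℝ) < 4))
  have y3 := abs_le.1 (ip_young (Nᵀ * z1) (z1 - z) (by norm_num : (0 : ℝ) < 4))
  rw [ip_comm (Nᵀ * z0) (z0 - z)] at y2
  rw [ip_comm (Nᵀ * z1) (z1 - z)] at y3
  have e8 : (2 * 4 : ℝ)⁻¹ = 1 / 8 := by norm_num
  rw [e8] at y0 y1 y2 y3
  rw [f0] at m0
  rw [f1] at m1
  linarith [y0.1, y0.2, y1.1, y1.2, y2.1, y2.2, y3.1, y3.2]

end

end Vale.Agent.P141.H28
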