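import Vale.Agent.P141.H28.RidgeW

/-!
# P141, line (A): the middle step with a moving weight and a saturated partner

The partner is `ps μ Y`, `Y` the Gram matrix of `A`.
-/

set_option linter.unusedSectionVars false

namespace Vale.Agent.P141.H28

open Matrix Vale.Agent.P075

noncomputable section

section one

variable {κ n : Type*} [Fintype κ] [Fintype n] [DecidableEq n] [DecidableEq κ]

/-- `tr (kap a a' b) ≤ η tr (a a') + η⁻¹ tr (a' b)` -/
theorem kap_le {a a' b : Matrix n n ℝ} {η : ℝ} (hη : 0 < η) (ha : a.PosSemidef)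
    (ha1 : (1 - a).PosSemidef) (ha' : a'.PosSemidef) (hb : b.PosSemidef)
    (hb1 : (b - b * b).PosSemidef) :
    (kap a a' * b).trace ≤ η * (a * a').trace + η⁻¹ * (a' * b).trace := by
  have hbs := psd_isSymm hb
  have h0 : 0 ≤ (a * ((η • 1 - b) * a' * (η • 1 - b))).trace := by
    refine trace_mul_nonneg ha (psd_conj_symm ha' ?_)
    rw [transpose_sub, hbs, transpose_smul, transpose_one]
  have e : a * ((η • 1 - b) * a' * (η • 1 - b))
      = (η * η) • (a * a') - η • (a * a' * b) - η • (a * b * a') + a * (b * a' * b) := by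
    simp only [Matrix.sub_mul, Matrix.mul_sub, Matrix.smul_mul, Matrix.mul_smul, Matrix.one_mul,
      Matrix.mul_one, smul_smul, ← Matrix.mul_assoc, smul_sub]
    abel
  have t1 : (a * b * a').trace = (a' * a * b).trace := by
    rw [trace_mul_comm, Matrix.mul_assoc]
  have h1 : (a * (b * a' * b)).trace ≤ (a' * b).trace := by
    have q1 : (a * (b * a' * b)).trace ≤ (b * a' * b).trace := by
      have := trace_mul_nonneg ha1 (psd_conj_symm ha' hbs)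
      rw [Matrix.sub_mul, Matrix.one_mul, trace_sub] at this
      linarith
    have q2 : (b * a' * b).trace = (a' * (b * b)).trace := by
      rw [Matrix.mul_assoc, trace_mul_comm, Matrix.mul_assoc]
    have q3 := trace_mul_nonneg ha' hb1
    rw [Matrix.mul_sub, trace_sub] at q3
    linarith
  rw [e, trace_add, trace_sub, trace_sub, trace_smul, trace_smul, trace_smul, smul_eq_mul,
    smul_eq_mul, smul_eq_mul, t1] at h0
  have h2 : (kap a a' * b).trace = (a * a' * b).trace + (a' * a * b).trace := by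
    rw [kap, Matrix.add_mul, trace_add]
  rw [h2]
  have h3 : η * ((a * a' * b).trace + (a' * a * b).trace)
      ≤ η * η * (a * a').trace + (a' * b).trace := by linarith
  have h4 := mul_le_mul_of_nonneg_left h3 (inv_nonneg.2 hη.le)
  have e5 : η⁻¹ * (η * ((a * a' * b).trace + (a' * a * b).trace))
      = (a * a' * b).trace + (a' * a * b).trace := by field_simp
  have e6 : η⁻¹ * (η * η * (a * a').trace + (a' * b).trace)
      = η * (a * a').trace + η⁻¹ * (a' * b).trace := by field_simp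
  rw [e5, e6] at h4
  exact h4

/-- **Lipschitz bound of the saturation in the weight** -/
theorem lip_w {ν : ℝ} (hν : 0 < ν) {Θ Θ' T' : Matrix κ κ ℝ} (hΘ : Θ.PosSemidef)
    (hΘ' : Θ'.PosSemidef) (hT' : Θ' * T' = 1) (hTp : T'.PosSemidef) (c : Matrix κ n ℝ) :
    ((ps ν (cᵀ * Θ' * c) - ps ν (cᵀ * Θ * c)) * (ps ν (cᵀ * Θ' * c) - ps ν (cᵀ * Θ * c))).trace
      ≤ ν⁻¹ * (cᵀ * ((Θ' - Θ) * T' * (Θ' - Θ)) * c).trace := by
  obtain ⟨S, hS, hSS⟩ := exists_sq hΘ'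
  have sS := psd_isSymm hS
  have g := nu_psd hν (gram_psd hΘ c)
  have g' := nu_psd hν (gram_psd hΘ' c)
  have sP := res_symm g
  have sP' := res_symm g'
  have sT := psd_isSymm hTp
  have sΘ := psd_isSymm hΘ
  have sΘ' := psd_isSymm hΘ'
  have hT2 : T' * Θ' = 1 := by
    have := congrArg transpose hT'
    rwa [transpose_mul, sT, sΘ', transpose_one] at this
  set P := res (ν • (cᵀ * Θ * c)) with hP
  set P' := res (ν • (cᵀ * Θ' * c)) with hP'
  set D := Θ' - Θ with hD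
  have sD : Dᵀ = D := by rw [hD, transpose_sub, sΘ, sΘ']
  -- resolvent identity
  have r1 : P - P' = ν • (P * (cᵀ * D * c) * P') := by
    have a1 : P * (1 + ν • (cᵀ * Θ * c)) = 1 := res_mul_one_add g
    have a2 : (1 + ν • (cᵀ * Θ' * c)) * P' = 1 := one_add_mul_res g'
    calc P - P' = P * ((1 + ν • (cᵀ * Θ' * c)) * P') - (P * (1 + ν • (cᵀ * Θ * c))) * P' := by
          rw [a1, a2, Matrix.mul_one, Matrix.one_mul]
      _ = P * ((1 + ν • (cᵀ * Θ' * c)) - (1 + ν • (cᵀ * Θ * c))) * P' := by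
          rw [Matrix.mul_sub, Matrix.sub_mul]; simp only [Matrix.mul_assoc]
      _ = ν • (P * (cᵀ * D * c) * P') := by
          have : (1 + ν • (cᵀ * Θ' * c)) - (1 + ν • (cᵀ * Θ * c)) = ν • (cᵀ * D * c) := by
            rw [hD, Matrix.mul_sub, Matrix.sub_mul, smul_sub]; abel
          rw [this, Matrix.mul_smul, Matrix.smul_mul]
  have e0 : ps ν (cᵀ * Θ' * c) - ps ν (cᵀ * Θ * c) = P * (cᵀ * D * c) * P' := by
    rw [ps, ps, ← smul_sub, phi, phi]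
    have : 1 - res (ν • (cᵀ * Θ' * c)) - (1 - res (ν • (cᵀ * Θ * c))) = P - P' := by
      rw [← hP, ← hP']; abel
    rw [this, r1, smul_smul, inv_mul_cancel₀ hν.ne', one_smul]
  -- the square
  set U := P' * cᵀ * S with hU
  have sq1 : (ps ν (cᵀ * Θ' * c) - ps ν (cᵀ * Θ * c)) * (ps ν (cᵀ * Θ' * c) - ps ν (cᵀ * Θ * c))
      = (P * (cᵀ * D * c) * P') * (P' * (cᵀ * D * c) * P) := by
    have s1 : (P * (cᵀ * D * c) * P')ᵀ = P' * (cᵀ * D * c) * P := by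
      simp only [transpose_mul, sP, sP', sD, transpose_transpose, Matrix.mul_assoc]
    have s2 : (ps ν (cᵀ * Θ' * c) - ps ν (cᵀ * Θ * c))ᵀ
        = ps ν (cᵀ * Θ' * c) - ps ν (cᵀ * Θ * c) := by
      rw [transpose_sub, psd_isSymm (ps_psd hν (gram_psd hΘ' c)),
        psd_isSymm (ps_psd hν (gram_psd hΘ c))]
    rw [← s1, ← e0, s2]
  -- write `D = D T' Θ'`
  have d1 : D = D * T' * S * S := by
    rw [Matrix.mul_assoc (D * T'), hSS, Matrix.mul_assoc, hT2, Matrix.mul_one]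
  have f1 : P * (cᵀ * D * c) * P' = (P * cᵀ * D * T' * S) * (P' * cᵀ * S)ᵀ := by
    conv_lhs => rw [d1]
    simp only [transpose_mul, transpose_transpose, sP', sS, Matrix.mul_assoc]
  -- `S c P'² cᵀ S ≤ (4 ν)⁻¹ ≤ ν⁻¹`
  have cap : (ν⁻¹ • (1 : Matrix κ κ ℝ) - (P' * cᵀ * S)ᵀ * (P' * cᵀ * S)).PosSemidef := by
    have e1 : (P' * cᵀ * S)ᵀ * (P' * cᵀ * S) = S * c * (P' * P') * cᵀ * S := by
      simp only [transpose_mul, transpose_transpose, sP', sS, Matrix.mul_assoc]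
    -- compare with `S c P' cᵀ S = ν⁻¹ phi (ν S c cᵀ S)`
    have h1 : (S * c * P' * cᵀ * S - S * c * (P' * P') * cᵀ * S).PosSemidef := by
      have h : (P' - P' * P').PosSemidef := by
        rw [res_sub_sq g']
        exact psd_conj_symm g' sP'
      have h2 := psd_conj h (S * c)
      have e2 : (S * c) * (P' - P' * P') * (S * c)ᵀ
          = S * c * P' * cᵀ * S - S * c * (P' * P') * cᵀ * S := by
        rw [transpose_mul, sS, Matrix.mul_sub, Matrix.sub_mul]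
        simp only [Matrix.mul_assoc]
      rwa [e2] at h2
    have hK : (ν • ((S * c) * (S * c)ᵀ)).PosSemidef := (psd_mul_transpose (S * c)).smul hν.le
    have h3 : S * c * P' * cᵀ * S = ν⁻¹ • phi (ν • ((S * c) * (S * c)ᵀ)) := by
      have q1 : (1 + ν • ((S * c) * (S * c)ᵀ)) * (S * c) = (S * c) * (1 + ν • (cᵀ * Θ' * c)) := by
        rw [Matrix.add_mul, Matrix.mul_add, Matrix.one_mul, Matrix.mul_one, Matrix.smul_mul,
          Matrix.mul_smul, transpose_mul, sS, ← hSS]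
        simp only [Matrix.mul_assoc]
      have q2 : (S * c) * P' = res (ν • ((S * c) * (S * c)ᵀ)) * (S * c) := by
        have a2 : (1 + ν • (cᵀ * Θ' * c)) * P' = 1 := one_add_mul_res g'
        calc (S * c) * P' = (res (ν • ((S * c) * (S * c)ᵀ)) * (1 + ν • ((S * c) * (S * c)ᵀ)))
              * (S * c) * P' := by rw [res_mul_one_add hK, Matrix.one_mul]
          _ = res (ν • ((S * c) * (S * c)ᵀ)) * ((1 + ν • ((S * c) * (S * c)ᵀ)) * (S * c))
              * P' := by simp only [Matrix.mul_assoc]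
          _ = res (ν • ((S * c) * (S * c)ᵀ)) * (S * c) * ((1 + ν • (cᵀ * Θ' * c)) * P') := by
              rw [q1]; simp only [Matrix.mul_assoc]
          _ = _ := by rw [a2, Matrix.mul_one]
      have q3 : res (ν • ((S * c) * (S * c)ᵀ)) * (ν • ((S * c) * (S * c)ᵀ))
          = phi (ν • ((S * c) * (S * c)ᵀ)) := res_mul_phi hK
      rw [← q3, Matrix.mul_smul, smul_smul, inv_mul_cancel₀ hν.ne', one_smul, q2, transpose_mul,
        sS]
      simp only [Matrix.mul_assoc]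
    have h4 : (ν⁻¹ • (1 : Matrix κ κ ℝ) - S * c * P' * cᵀ * S).PosSemidef := by
      rw [h3, ← smul_sub]
      exact (one_sub_phi_psd hK).smul (inv_nonneg.2 hν.le)
    rw [e1]
    have := h4.add h1
    have e3 : ν⁻¹ • (1 : Matrix κ κ ℝ) - S * c * P' * cᵀ * S
        + (S * c * P' * cᵀ * S - S * c * (P' * P') * cᵀ * S)
        = ν⁻¹ • (1 : Matrix κ κ ℝ) - S * c * (P' * P') * cᵀ * S := by abel
    rwa [e3] at this
  -- conclude
  have e4 : ((P * (cᵀ * D * c) * P') * (P' * (cᵀ * D * c) * P)).trace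
      = (((P * cᵀ * D * T' * S)ᵀ * (P * cᵀ * D * T' * S))
        * ((P' * cᵀ * S)ᵀ * (P' * cᵀ * S))).trace := by
    have s1 : P' * (cᵀ * D * c) * P = (P' * cᵀ * S) * (P * cᵀ * D * T' * S)ᵀ := by
      have := congrArg transpose f1
      have s1 : (P * (cᵀ * D * c) * P')ᵀ = P' * (cᵀ * D * c) * P := by
        simp only [transpose_mul, sP, sP', sD, transpose_transpose, Matrix.mul_assoc]
      rw [s1, transpose_mul, transpose_transpose] at this
      exact this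
    rw [f1, s1]
    generalize P * cᵀ * D * T' * S = F
    generalize P' * cᵀ * S = W
    have : F * Wᵀ * (W * Fᵀ) = F * (Wᵀ * W * Fᵀ) := by simp only [Matrix.mul_assoc]
    rw [this, trace_mul_comm]
    have : Wᵀ * W * Fᵀ * F = Wᵀ * W * (Fᵀ * F) := by simp only [Matrix.mul_assoc]
    rw [this, trace_mul_comm]
  have h5 := trace_mul_nonneg (psd_transpose_mul (P * cᵀ * D * T' * S)) cap
  rw [Matrix.mul_sub, trace_sub, Matrix.mul_smul, Matrix.mul_one, trace_smul, smul_eq_mul] at h5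
  have h6 : ((P * cᵀ * D * T' * S)ᵀ * (P * cᵀ * D * T' * S)).trace
      ≤ (cᵀ * (D * T' * D) * c).trace := by
    have q1 : ((P * cᵀ * D * T' * S)ᵀ * (P * cᵀ * D * T' * S)).trace
        = ((cᵀ * (D * T' * D) * c) * (P * P)).trace := by
      rw [trace_mul_comm]
      have : P * cᵀ * D * T' * S * (P * cᵀ * D * T' * S)ᵀ
          = P * ((cᵀ * (D * T' * D) * c) * P) := by
        have : P * cᵀ * D * T' * S * (P * cᵀ * D * T' * S)ᵀ
            = P * cᵀ * D * T' * (S * S) * T' * D * c * P := by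
          simp only [transpose_mul, transpose_transpose, sP, sD, sT, sS, Matrix.mul_assoc]
        rw [this, hSS]
        have : P * cᵀ * D * T' * Θ' * T' * D * c * P
            = P * cᵀ * D * (T' * Θ') * T' * D * c * P := by simp only [Matrix.mul_assoc]
        rw [this, hT2, Matrix.mul_one]
        simp only [Matrix.mul_assoc]
      rw [this, trace_mul_comm, Matrix.mul_assoc]
    have hK := gram_psd (psd_conj_symm hTp sD) c
    have h7 : (1 - P * P).PosSemidef := by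
      have e2 : 1 - P * P = (1 - P) + P * (ν • (cᵀ * Θ * c)) * P := by
        rw [hP, ← res_sub_sq g]; abel
      rw [e2]
      exact (one_sub_res_psd g).add (psd_conj_symm g sP)
    have h8 := trace_mul_nonneg hK h7
    rw [Matrix.mul_sub, Matrix.mul_one, trace_sub] at h8
    rw [q1]
    linarith
  rw [sq1, e4]
  have := mul_le_mul_of_nonneg_left h6 (inv_nonneg.2 hν.le)
  linarith

end one

section two

variable {κ ι : Type*} [Fintype κ] [Fintype ι] [DecidableEq ι] [DecidableEq κ]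

/-- Cauchy-Schwarz for two symmetric matrices -/
theorem tr_cs {m : Type*} [Fintype m] {U V : Matrix m m ℝ} (hU : Uᵀ = U) (hV : Vᵀ = V) :
    (U * V).trace ≤ (1 / 2) * ((U * U).trace + (V * V).trace) := by
  have h : 0 ≤ ((U - V) * (U - V)).trace := by
    have e : (U - V) * (U - V) = (U - V)ᵀ * (U - V) := by rw [transpose_sub, hU, hV]
    rw [e]
    exact (psd_transpose_mul (U - V)).trace_nonneg
  have e : (U - V) * (U - V) = U * U - U * V - V * U + V * V := by noncomm_ring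
  rw [e, trace_add, trace_sub, trace_sub, trace_mul_comm V U] at h
  linarith

theorem rad_conj_mul (Y Z : Matrix (ι ⊕ ι) (ι ⊕ ι) ℝ) :
    (rad ι * Y * rad ι * Z).trace = (Y * (rad ι * Z * rad ι)).trace := by
  rw [Matrix.mul_assoc, Matrix.mul_assoc, trace_mul_comm]
  simp only [Matrix.mul_assoc]

/-- the blocks of a positive semidefinite matrix as Gram matrices -/
theorem exists_cols {Q : Matrix (ι ⊕ ι) (ι ⊕ ι) ℝ} (hQ : Q.PosSemidef) :
    ∃ A₀ A₁ : Matrix (ι ⊕ ι) ι ℝ, Q = (1 / 2 : ℝ) • ((fromCols A₀ A₁)ᵀ * fromCols A₀ A₁) := by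
  obtain ⟨B, hB, hBB⟩ := exists_sq hQ
  refine ⟨(√2 • B).toCols₁, (√2 • B).toCols₂, ?_⟩
  rw [fromCols_toCols, transpose_smul, psd_isSymm hB, Matrix.smul_mul, Matrix.mul_smul, smul_smul,
    smul_smul, hBB, mul_assoc, Real.mul_self_sqrt (by norm_num)]
  norm_num

theorem bd_smul (t : ℝ) (P Q : Matrix ι ι ℝ) : t • bd P Q = bd (t • P) (t • Q) := by
  rw [bd, bd, fromBlocks_smul, smul_zero]

theorem bd_sub (P Q P' Q' : Matrix ι ι ℝ) : bd P Q - bd P' Q' = bd (P - P') (Q - Q') := by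
  rw [bd, bd, bd]
  ext i j
  rcases i with i | i <;> rcases j with j | j <;> simp [fromBlocks]

theorem ps_bd {μ : ℝ} (hμ : 0 < μ) {P Q : Matrix ι ι ℝ} (hP : P.PosSemidef)
    (hQ : Q.PosSemidef) : ps μ (bd P Q) = bd (ps μ P) (ps μ Q) := by
  rw [ps, bd_smul, phi_bd (nu_psd hμ hP) (nu_psd hμ hQ), bd_smul, ps, ps]

theorem rad_mul2 (P Q : Matrix (ι ⊕ ι) (ι ⊕ ι) ℝ) :
    rad ι * (P * Q) * rad ι = (rad ι * P * rad ι) * (rad ι * Q * rad ι) := by
  have : (rad ι * P * rad ι) * (rad ι * Q * rad ι)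
      = rad ι * P * (rad ι * rad ι) * Q * rad ι := by simp only [Matrix.mul_assoc]
  rw [this, rad_sq, Matrix.mul_one]
  simp only [Matrix.mul_assoc]

theorem kap_symm {a a' : Matrix (ι ⊕ ι) (ι ⊕ ι) ℝ} (ha : aᵀ = a) (ha' : a'ᵀ = a') :
    (kap a a')ᵀ = kap a a' := by
  rw [kap, transpose_add, transpose_mul, transpose_mul, ha, ha', add_comm]

theorem kap_rad (a : Matrix (ι ⊕ ι) (ι ⊕ ι) ℝ) :
    rad ι * kap a (rad ι * a * rad ι) * rad ι = kap a (rad ι * a * rad ι) := by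
  have e1 : rad ι * (rad ι * a * rad ι) * rad ι = a := refl_refl rad_sq a
  rw [kap, Matrix.mul_add, Matrix.add_mul, rad_mul2, rad_mul2 (rad ι * a * rad ι) a, e1, add_comm]

/-- the square of a sum of two symmetric matrices -/
theorem tr_sq_add {m : Type*} [Fintype m] {U V : Matrix m m ℝ} (hU : Uᵀ = U) (hV : Vᵀ = V) :
    ((U - V) * (U - V)).trace ≤ 2 * (U * U).trace + 2 * (V * V).trace := by
  have c1 := tr_cs (U := U) (V := -V) hU (by rw [transpose_neg, hV])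
  rw [Matrix.mul_neg, trace_neg, neg_mul_neg] at c1
  have e : (U - V) * (U - V) = U * U - U * V - V * U + V * V := by noncomm_ring
  rw [e, trace_add, trace_sub, trace_sub, trace_mul_comm V U]
  linarith

/-- The deficiency of the partner against the moved halves. -/
theorem kap_moved {μ ν : ℝ} (hμ : 0 < μ) (hν : 0 < ν) {X Y : Matrix (ι ⊕ ι) (ι ⊕ ι) ℝ}
    {P₀ P₁ Q₀ Q₁ : Matrix ι ι ℝ} (hX : X.PosSemidef) (hY : Y.PosSemidef)
    (bX : ν • X + rad ι * (ν • X) * rad ι = bd (ν • Q₀) (ν • Q₁))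
    (hQ₀ : Q₀.PosSemidef) (hQ₁ : Q₁.PosSemidef) (hP₀ : P₀.PosSemidef) (hP₁ : P₁.PosSemidef)
    {L : ℝ} (hL : ((P₀ - ps ν Q₀) * (P₀ - ps ν Q₀)).trace
      + ((P₁ - ps ν Q₁) * (P₁ - ps ν Q₁)).trace ≤ ν⁻¹ * L) :
    (kap (phi (μ • Y)) (rad ι * phi (μ • Y) * rad ι) * bd P₀ P₁).trace
      ≤ ν⁻¹ * (18 * (phi (μ • Y) * (rad ι * phi (μ • Y) * rad ι)).trace
          + (1 / 4) * (rad ι * phi (μ • Y) * rad ι * phi (ν • X)).trace
          + 12 * (phi (ν • X) * (rad ι * phi (ν • X) * rad ι)).trace) + L := by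
  have rs : (rad ι)ᵀ = rad ι := rad_symm
  have r2 : rad ι * rad ι = 1 := rad_sq
  have hμY := nu_psd hμ hY
  have hνX := nu_psd hν hX
  have hμY' := refl_psd hμY rs
  have hνX' := refl_psd hνX rs
  have ea' : phi (rad ι * (μ • Y) * rad ι) = rad ι * phi (μ • Y) * rad ι := phi_refl hμY rs r2
  have eb' : phi (rad ι * (ν • X) * rad ι) = rad ι * phi (ν • X) * rad ι := phi_refl hνX rs r2
  have pa := phi_psd hμY
  have pb := phi_psd hνX
  have pa' : (rad ι * phi (μ • Y) * rad ι).PosSemidef := psd_conj_symm pa rs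
  have pb' : (rad ι * phi (ν • X) * rad ι).PosSemidef := psd_conj_symm pb rs
  have q5 := kap_le (by norm_num : (0 : ℝ) < 8) pa (one_sub_phi_psd hμY) pa' pb
    (phi_sub_sq_psd hνX)
  have q6 : (kap (phi (μ • Y)) (rad ι * phi (μ • Y) * rad ι)
        * (rad ι * phi (ν • X) * rad ι)).trace
      = (kap (phi (μ • Y)) (rad ι * phi (μ • Y) * rad ι) * phi (ν • X)).trace := by
    rw [← rad_conj_mul, kap_rad]
  have q7 := trace_kap_sq_le pa (one_sub_phi_psd hμY) (phi_sub_sq_psd hμY) pa'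
    (by rw [← ea']; exact one_sub_phi_psd hμY') (by rw [← ea']; exact phi_sub_sq_psd hμY')
  have pk := kap_symm (psd_isSymm pa) (psd_isSymm pa')
  have w2 := trace_Del_sq_le hνX hνX'
  have sD := Del_symm hνX hνX'
  have eD : Del (ν • X) (rad ι * (ν • X) * rad ι)
      = phi (ν • X) + rad ι * phi (ν • X) * rad ι
        - ν • bd (ps ν Q₀) (ps ν Q₁) := by
    rw [Del, eb', bX, phi_bd (nu_psd hν hQ₀) (nu_psd hν hQ₁), bd_smul, ps, ps, smul_smul,
      smul_smul, mul_inv_cancel₀ hν.ne', one_smul, one_smul]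
  rw [eb'] at w2
  have sP₀ : (P₀ - ps ν Q₀)ᵀ = P₀ - ps ν Q₀ := by
    rw [transpose_sub, psd_isSymm hP₀, psd_isSymm (ps_psd hν hQ₀)]
  have sP₁ : (P₁ - ps ν Q₁)ᵀ = P₁ - ps ν Q₁ := by
    rw [transpose_sub, psd_isSymm hP₁, psd_isSymm (ps_psd hν hQ₁)]
  generalize Del (ν • X) (rad ι * (ν • X) * rad ι) = D at w2 sD eD
  generalize phi (μ • Y) = a at *
  generalize phi (ν • X) = b at *
  generalize rad ι * a * rad ι = a' at *
  generalize rad ι * b * rad ι = b' at *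
  have hW : ν • bd P₀ P₁ = b + b' + (ν • bd (P₀ - ps ν Q₀) (P₁ - ps ν Q₁) - D) := by
    rw [← bd_sub, smul_sub, eD]; abel
  have sW : (ν • bd (P₀ - ps ν Q₀) (P₁ - ps ν Q₁))ᵀ
      = ν • bd (P₀ - ps ν Q₀) (P₁ - ps ν Q₁) := by
    rw [transpose_smul, bd, fromBlocks_transpose, sP₀, sP₁, transpose_zero]
  have w5 := tr_sq_add sW sD
  have e2 : ((ν • bd (P₀ - ps ν Q₀) (P₁ - ps ν Q₁))
        * (ν • bd (P₀ - ps ν Q₀) (P₁ - ps ν Q₁))).trace
      = ν * ν * (((P₀ - ps ν Q₀) * (P₀ - ps ν Q₀)).trace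
        + ((P₁ - ps ν Q₁) * (P₁ - ps ν Q₁)).trace) := by
    rw [Matrix.smul_mul, Matrix.mul_smul, trace_smul, trace_smul, tr_bd', smul_eq_mul,
      smul_eq_mul]
    ring
  have q8 := tr_cs (U := kap a a') (V := ν • bd (P₀ - ps ν Q₀) (P₁ - ps ν Q₁) - D) pk
    (by rw [transpose_sub, sW, sD])
  have q4 : ν * (kap a a' * bd P₀ P₁).trace
      = (kap a a' * b).trace + (kap a a' * b').trace
        + (kap a a' * (ν • bd (P₀ - ps ν Q₀) (P₁ - ps ν Q₁) - D)).trace := by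
    rw [← trace_add, ← trace_add, ← Matrix.mul_add, ← Matrix.mul_add, ← hW, Matrix.mul_smul,
      trace_smul, smul_eq_mul]
  have n1 : ν * ν * (((P₀ - ps ν Q₀) * (P₀ - ps ν Q₀)).trace
        + ((P₁ - ps ν Q₁) * (P₁ - ps ν Q₁)).trace) ≤ ν * L := by
    have h := mul_le_mul_of_nonneg_left hL (mul_nonneg hν.le hν.le)
    refine h.trans (le_of_eq ?_)
    field_simp
  have h8 : (8 : ℝ)⁻¹ = 1 / 8 := by norm_num
  rw [h8] at q5
  rw [e2] at w5
  have key : ν * (kap a a' * bd P₀ P₁).trace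
      ≤ (18 * (a * a').trace + (1 / 4) * (a' * b).trace + 12 * (b * b').trace) + ν * L := by
    rw [q4, q6]
    linarith
  have h := mul_le_mul_of_nonneg_left key (inv_nonneg.2 hν.le)
  rw [inv_mul_cancel_left₀ hν.ne', mul_add, inv_mul_cancel_left₀ hν.ne'] at h
  exact h

theorem num_sat {mi ni V g S K aa bb L LM Ln : ℝ} (h2 : 0 ≤ mi * L)
    (hK : mi * K ≤ mi * (ni * (18 * aa + (1 / 4) * g + 12 * bb) + L))
    (hw : V + (1 / 4) * (mi * ni * g) ≤ (1 / 2) * (S + mi * K)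
      + (mi * (ni * bb) + mi * (2 * LM + L + Ln))) :
    V + (1 / 8) * (mi * ni * g) ≤ (1 / 2) * S
      + mi * (ni * (9 * aa + 7 * bb) + 2 * LM + 2 * L + Ln) := by
  nlinarith [h2, hK, hw]

/-- **Middle step with a moving weight and a saturated partner.** -/
theorem mid_sat {μ ν : ℝ} (hμ : 0 < μ) (hν : 0 < ν)
    {Θ T Θ₀ T₀ Θ₁ T₁ N M Nm : Matrix κ κ ℝ} (hΘ : Θ.PosSemidef)
    (hΘ₀ : Θ₀.PosSemidef) (hΘ₁ : Θ₁.PosSemidef) (hT : Θ * T = 1) (hT₀ : Θ₀ * T₀ = 1)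
    (hT₁ : Θ₁ * T₁ = 1) (hTp : T.PosSemidef) (hTp₀ : T₀.PosSemidef) (hTp₁ : T₁.PosSemidef)
    (e₀ : Θ₀ = Θ + N + M) (e₁ : Θ₁ = Θ + N - M) (hN : Nᵀ = N) (hM : Mᵀ = M)
    (hNm : Nm.PosSemidef) (hNN : (N + Nm).PosSemidef) (c₀ c₁ : Matrix κ ι ℝ)
    {X Y : Matrix (ι ⊕ ι) (ι ⊕ ι) ℝ} {Y₀ Y₁ : Matrix ι ι ℝ}
    (hX : X = (1 / 2 : ℝ) • ((fromCols c₀ c₁)ᵀ * Θ * fromCols c₀ c₁))
    (hY : Y.PosSemidef) (hY₀ : Y₀.PosSemidef) (hY₁ : Y₁.PosSemidef)
    (bY : Y + rad ι * Y * rad ι = bd Y₀ Y₁) :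
    (ps μ Y * ps ν X).trace + (1 / 8) * (ps μ Y * (rad ι * ps ν X * rad ι)).trace
      ≤ (1 / 2) * ((ps μ Y₀ * ps ν (c₀ᵀ * Θ₀ * c₀)).trace
          + (ps μ Y₁ * ps ν (c₁ᵀ * Θ₁ * c₁)).trace)
        + μ⁻¹ * (ν⁻¹ * (9 * (phi (μ • Y) * (rad ι * phi (μ • Y) * rad ι)).trace
            + 7 * (phi (ν • X) * (rad ι * phi (ν • X) * rad ι)).trace)
          + 2 * ((c₀ᵀ * (M * T * M) * c₀).trace + (c₁ᵀ * (M * T * M) * c₁).trace)
          + 2 * ((c₀ᵀ * ((N + M) * T₀ * (N + M)) * c₀).trace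
            + (c₁ᵀ * ((N - M) * T₁ * (N - M)) * c₁).trace)
          + ((c₀ᵀ * Nm * c₀).trace + (c₁ᵀ * Nm * c₁).trace)) := by
  classical
  have μ0 : 0 < μ⁻¹ := inv_pos.2 hμ
  have ν0 : 0 < ν⁻¹ := inv_pos.2 hν
  have g₀ := gram_psd hΘ c₀
  have g₁ := gram_psd hΘ c₁
  have k₀ := gram_psd hΘ₀ c₀
  have k₁ := gram_psd hΘ₁ c₁
  have gX : X.PosSemidef := by
    rw [hX]; exact (gram_psd hΘ _).smul (by norm_num)
  have bX : ν • X + rad ι * (ν • X) * rad ι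
      = bd (ν • (c₀ᵀ * Θ * c₀)) (ν • (c₁ᵀ * Θ * c₁)) := by
    have e : ν • X + rad ι * (ν • X) * rad ι = ν • (X + rad ι * X * rad ι) := by
      rw [smul_add, Matrix.mul_smul, Matrix.smul_mul]
    rw [e, hX, half_bd Θ c₀ c₁, bd_smul]
  have rs : (rad ι)ᵀ = rad ι := rad_symm
  have r2 : rad ι * rad ι = 1 := rad_sq
  have hμY := nu_psd hμ hY
  have hνX := nu_psd hν gX
  have hμY' := refl_psd hμY rs
  -- the partner as a Gram matrix
  have hQ := ps_psd hμ hY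
  obtain ⟨A₀, A₁, hA⟩ := exists_cols hQ
  have bA : ps μ Y + rad ι * ps μ Y * rad ι = bd (A₀ᵀ * A₀) (A₁ᵀ * A₁) := by
    rw [hA]; exact half_bd' A₀ A₁
  have capQ : ((2 * μ⁻¹) • (1 : Matrix (ι ⊕ ι) (ι ⊕ ι) ℝ)
      - bd (A₀ᵀ * A₀) (A₁ᵀ * A₁)).PosSemidef := by
    have h1 : (μ⁻¹ • (1 : Matrix (ι ⊕ ι) (ι ⊕ ι) ℝ) - ps μ Y).PosSemidef := by
      rw [ps, ← smul_sub]
      exact (one_sub_phi_psd hμY).smul μ0.le
    have h2 : (μ⁻¹ • (1 : Matrix (ι ⊕ ι) (ι ⊕ ι) ℝ) - rad ι * ps μ Y * rad ι).PosSemidef := by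
      have h := psd_conj_symm h1 rs
      rwa [Matrix.mul_sub, Matrix.sub_mul, Matrix.mul_smul, Matrix.smul_mul, Matrix.mul_one,
        r2] at h
    have h3 := h1.add h2
    rw [← bA]
    have e : (2 * μ⁻¹) • (1 : Matrix (ι ⊕ ι) (ι ⊕ ι) ℝ)
        - (ps μ Y + rad ι * ps μ Y * rad ι)
        = (μ⁻¹ • (1 : Matrix (ι ⊕ ι) (ι ⊕ ι) ℝ) - ps μ Y)
          + (μ⁻¹ • (1 : Matrix (ι ⊕ ι) (ι ⊕ ι) ℝ) - rad ι * ps μ Y * rad ι) := by
      rw [two_mul, add_smul]; abel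
    rwa [e]
  have cap₀ : ((2 * μ⁻¹) • (1 : Matrix ι ι ℝ) - A₀ᵀ * A₀).PosSemidef := by
    have h := capQ.submatrix Sum.inl
    have e : ((2 * μ⁻¹) • (1 : Matrix (ι ⊕ ι) (ι ⊕ ι) ℝ)
        - bd (A₀ᵀ * A₀) (A₁ᵀ * A₁)).submatrix Sum.inl Sum.inl
        = (2 * μ⁻¹) • (1 : Matrix ι ι ℝ) - A₀ᵀ * A₀ := by
      ext i j
      simp [bd, Matrix.one_apply]
    rwa [e] at h
  have cap₁ : ((2 * μ⁻¹) • (1 : Matrix ι ι ℝ) - A₁ᵀ * A₁).PosSemidef := by
    have h := capQ.submatrix Sum.inr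
    have e : ((2 * μ⁻¹) • (1 : Matrix (ι ⊕ ι) (ι ⊕ ι) ℝ)
        - bd (A₀ᵀ * A₀) (A₁ᵀ * A₁)).submatrix Sum.inr Sum.inr
        = (2 * μ⁻¹) • (1 : Matrix ι ι ℝ) - A₁ᵀ * A₁ := by
      ext i j
      simp [bd, Matrix.one_apply]
    rwa [e] at h
  have mw := mid_weight hν (by positivity : (0 : ℝ) ≤ 2 * μ⁻¹) hΘ hΘ₀ hΘ₁ hT hT₀ hT₁ hTp hTp₀
    hTp₁ e₀ e₁ hN hM hNm hNN cap₀ cap₁ c₀ c₁ hX hA
  -- the halves
  have pZ' : (bd (ps ν (c₀ᵀ * Θ₀ * c₀)) (ps ν (c₁ᵀ * Θ₁ * c₁))).PosSemidef :=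
    bd_psd (ps_psd hν k₀) (ps_psd hν k₁)
  have q2 : (A₀ᵀ * A₀ * ps ν (c₀ᵀ * Θ₀ * c₀)).trace + (A₁ᵀ * A₁ * ps ν (c₁ᵀ * Θ₁ * c₁)).trace
      = (ps μ Y₀ * ps ν (c₀ᵀ * Θ₀ * c₀)).trace + (ps μ Y₁ * ps ν (c₁ᵀ * Θ₁ * c₁)).trace
        + μ⁻¹ * (Del (μ • Y) (rad ι * (μ • Y) * rad ι)
          * bd (ps ν (c₀ᵀ * Θ₀ * c₀)) (ps ν (c₁ᵀ * Θ₁ * c₁))).trace := by
    have e1 : bd (A₀ᵀ * A₀) (A₁ᵀ * A₁) = bd (ps μ Y₀) (ps μ Y₁)
        + μ⁻¹ • Del (μ • Y) (rad ι * (μ • Y) * rad ι) := by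
      have ea' : phi (rad ι * (μ • Y) * rad ι) = rad ι * phi (μ • Y) * rad ι :=
        phi_refl hμY rs r2
      have e3 : μ • Y + rad ι * (μ • Y) * rad ι = μ • bd Y₀ Y₁ := by
        rw [← bY, smul_add, Matrix.mul_smul, Matrix.smul_mul]
      rw [← bA, ← ps_bd hμ hY₀ hY₁, Del, ea', e3, ps, ps, Matrix.mul_smul, Matrix.smul_mul,
        smul_sub, smul_add]
      abel
    rw [← tr_bd', e1, Matrix.add_mul, trace_add, tr_bd', Matrix.smul_mul, trace_smul,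
      smul_eq_mul]
  have q3 : (Del (μ • Y) (rad ι * (μ • Y) * rad ι)
        * bd (ps ν (c₀ᵀ * Θ₀ * c₀)) (ps ν (c₁ᵀ * Θ₁ * c₁))).trace
      ≤ (kap (phi (μ • Y)) (rad ι * phi (μ • Y) * rad ι)
        * bd (ps ν (c₀ᵀ * Θ₀ * c₀)) (ps ν (c₁ᵀ * Θ₁ * c₁))).trace := by
    have h := trace_mul_nonneg (Gam_psd hμY hμY') pZ'
    rw [Del_eq, phi_refl hμY rs r2, Matrix.sub_mul, trace_sub]
    linarith
  have lip₀ := lip_w hν hΘ hΘ₀ hT₀ hTp₀ c₀
  have lip₁ := lip_w hν hΘ hΘ₁ hT₁ hTp₁ c₁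
  have d₀ : Θ₀ - Θ = N + M := by rw [e₀]; abel
  have d₁ : Θ₁ - Θ = N - M := by rw [e₁]; abel
  rw [d₀] at lip₀
  rw [d₁] at lip₁
  have m1 := kap_moved hμ hν gX hY bX g₀ g₁ (ps_psd hν k₀) (ps_psd hν k₁)
    (L := (c₀ᵀ * ((N + M) * T₀ * (N + M)) * c₀).trace
        + (c₁ᵀ * ((N - M) * T₁ * (N - M)) * c₁).trace) (by rw [mul_add]; linarith)
  have m2 := mul_le_mul_of_nonneg_left (q3.trans m1) μ0.le
  have L1 : 0 ≤ (c₀ᵀ * ((N + M) * T₀ * (N + M)) * c₀).trace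
        + (c₁ᵀ * ((N - M) * T₁ * (N - M)) * c₁).trace := by
    have sNp : (N + M)ᵀ = N + M := by rw [transpose_add, hN, hM]
    have sNn : (N - M)ᵀ = N - M := by rw [transpose_sub, hN, hM]
    exact add_nonneg (gram_psd (psd_conj_symm hTp₀ sNp) c₀).trace_nonneg
      (gram_psd (psd_conj_symm hTp₁ sNn) c₁).trace_nonneg
  have f1 : (ps μ Y * (rad ι * ps ν X * rad ι)).trace
      = μ⁻¹ * ν⁻¹ * (rad ι * phi (μ • Y) * rad ι * phi (ν • X)).trace := by
    rw [rad_conj_mul, ps, ps, Matrix.mul_smul, Matrix.smul_mul, Matrix.smul_mul, Matrix.mul_smul,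
      trace_smul, trace_smul, smul_eq_mul, smul_eq_mul]
    ring
  have f2 : (2 * μ⁻¹) * ((ν / 2) * (ps ν X * (rad ι * ps ν X * rad ι)).trace)
      = μ⁻¹ * (ν⁻¹ * (phi (ν • X) * (rad ι * phi (ν • X) * rad ι)).trace) := by
    rw [ps, Matrix.mul_smul, Matrix.smul_mul, Matrix.smul_mul, Matrix.mul_smul,
      trace_smul, trace_smul, smul_eq_mul, smul_eq_mul]
    field_simp
  rw [q2, f1] at mw
  rw [f1]
  refine num_sat (mul_nonneg μ0.le L1) m2 (mw.trans (le_of_eq ?_))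
  rw [← f2]
  ring

end two

end

end Vale.Agent.P141.H28
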